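import Vale.Agent.P286.H710.OmM2
import Vale.Agent.P286.H697.J.Dual

/-!
# The algebra of differential forms is flat, of finite degree, with homogeneous projections
-/

namespace Vale.Agent.P286.H697

open Vale.Agent.P286.H710 TensorProduct

noncomputable section

/-- A dual basis of the differentials of a smooth algebra, in the letters of `H710`. -/
theorem exists_DB (A : Type) [CommRing A] [Algebra ℂ A] [Algebra.Smooth ℂ A] :
    Nonempty (DB ℂ A) := by
  obtain ⟨r, x, v, h⟩ := exists_dualBasis A
  exact ⟨⟨r, x, v, h⟩⟩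

variable {k A : Type} [CommRing k] [CommRing A] [Algebra k A]

/-- The coordinates of a differential. -/
def crd (b : DB k A) : Ω[A⁄k] →ₗ[A] (Fin b.n → A) :=
  LinearMap.pi fun i => (b.v i).liftKaehlerDifferential

/-- The differential with given coordinates. -/
def crdInv (b : DB k A) : (Fin b.n → A) →ₗ[A] Ω[A⁄k] :=
  Fintype.linearCombination A fun i => KaehlerDifferential.D k A (b.x i)

theorem crdInv_crd (b : DB k A) : (crdInv b).comp (crd b) = LinearMap.id := by
  apply Derivation.liftKaehlerDifferential_unique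
  ext a
  change crdInv b (crd b (KaehlerDifferential.D k A a)) = KaehlerDifferential.D k A a
  rw [crdInv, Fintype.linearCombination_apply, b.h a]
  refine Finset.sum_congr rfl fun i _ => ?_
  congr 1
  change (b.v i).liftKaehlerDifferential (∑ j, b.v j a • KaehlerDifferential.D k A (b.x j)) = _
  rw [← b.h a, Derivation.liftKaehlerDifferential_comp_D]

instance free_ext (n : ℕ) : Module.Free A (ExteriorAlgebra A (Fin n → A)) :=
  Module.Free.of_basis (Pi.basisFun A (Fin n)).ExteriorAlgebra

theorem flat_Om (b : DB k A) : Module.Flat A (Om k A) := by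
  refine Module.Flat.of_retract (M := ExteriorAlgebra A (Fin b.n → A))
    (ExteriorAlgebra.map (crd b)).toLinearMap (ExteriorAlgebra.map (crdInv b)).toLinearMap ?_
  have h := ExteriorAlgebra.map_comp_map (crd b) (crdInv b)
  rw [crdInv_crd, ExteriorAlgebra.map_id] at h
  exact congrArg AlgHom.toLinearMap h

/-- There are no forms of degree greater than the number of coordinates. -/
theorem gr_eq_zero (b : DB k A) {p : ℕ} (hp : b.n < p) {x : Om k A} (hx : x ∈ Om.gr k A p) :
    x = 0 := by
  have h1 : ExteriorAlgebra.map (crd b) x ∈ ⋀[A]^p (Fin b.n → A) := by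
    have h2 : Submodule.map (ExteriorAlgebra.map (crd b)).toLinearMap
        (LinearMap.range (ExteriorAlgebra.ι A (M := Ω[A⁄k])) ^ p) ≤
        LinearMap.range (ExteriorAlgebra.ι A (M := Fin b.n → A)) ^ p := by
      rw [Submodule.map_pow]
      refine pow_le_pow_left' ?_ p
      rintro _ ⟨_, ⟨m, rfl⟩, rfl⟩
      exact ⟨crd b m, (ExteriorAlgebra.map_apply_ι (crd b) m).symm⟩
    exact h2 ⟨x, hx, rfl⟩
  have h3 : IsEmpty (Set.powersetCard (Fin b.n) p) := by
    constructor
    rintro ⟨s, hs⟩
    have h4 : s.card = p := hs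
    have h5 := s.card_le_univ
    rw [Fintype.card_fin] at h5
    omega
  have h6 : Subsingleton (⋀[A]^p (Fin b.n → A)) :=
    ((Pi.basisFun A (Fin b.n)).exteriorPower (n := p)).repr.toEquiv.subsingleton
  have h7 : ExteriorAlgebra.map (crd b) x = 0 := by
    have := Subsingleton.elim (⟨_, h1⟩ : ⋀[A]^p (Fin b.n → A)) 0
    exact congrArg Subtype.val this
  have h8 := congrArg (ExteriorAlgebra.map (crdInv b)) h7
  have h9 := ExteriorAlgebra.map_comp_map (crd b) (crdInv b)
  rw [crdInv_crd, ExteriorAlgebra.map_id] at h9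
  have h10 := AlgHom.congr_fun h9 x
  rw [AlgHom.comp_apply, AlgHom.id_apply] at h10
  rw [← h10, h8, map_zero]

/-- The homogeneous projections. -/
def Om.pr (k A : Type) [CommRing k] [CommRing A] [Algebra k A] (p : ℕ) : Om k A →ₗ[A] Om k A :=
  GradedAlgebra.proj (fun i : ℕ => ⋀[A]^i (Ω[A⁄k])) p

theorem Om.pr_mem (p : ℕ) (x : Om k A) : Om.pr k A p x ∈ Om.gr k A p := by
  rw [Om.pr, GradedAlgebra.proj_apply]
  exact SetLike.coe_mem _

theorem Om.pr_of_mem {p : ℕ} {x : Om k A} (hx : x ∈ Om.gr k A p) : Om.pr k A p x = x := by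
  rw [Om.pr, GradedAlgebra.proj_apply]
  exact DirectSum.decompose_of_mem_same _ hx

theorem Om.pr_of_ne {p q : ℕ} (h : q ≠ p) {x : Om k A} (hx : x ∈ Om.gr k A q) :
    Om.pr k A p x = 0 := by
  rw [Om.pr, GradedAlgebra.proj_apply]
  exact DirectSum.decompose_of_mem_ne _ hx h

theorem Om.sum_pr (b : DB k A) (x : Om k A) : ∑ p ∈ Finset.range (b.n + 1), Om.pr k A p x = x := by
  classical
  have h := DirectSum.sum_support_decompose (fun i : ℕ => ⋀[A]^i (Ω[A⁄k])) x
  conv_rhs => rw [← h]
  have h0 : ∀ p, Om.pr k A p x = (DirectSum.decompose (fun i : ℕ => ⋀[A]^i (Ω[A⁄k])) x p :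
    Om k A) := fun p => GradedAlgebra.proj_apply _ _ _
  symm
  rw [Finset.sum_congr rfl fun p _ => h0 p]
  refine Finset.sum_subset_zero_on_sdiff ?_ ?_ (fun _ _ => rfl)
  · intro p hp
    rw [Finset.mem_range]
    by_contra hn
    rw [DFinsupp.mem_support_iff] at hp
    apply hp
    apply Subtype.ext
    exact gr_eq_zero b (by omega) (SetLike.coe_mem _)
  · intro p hp
    rw [Finset.mem_sdiff, DFinsupp.notMem_support_iff] at hp
    rw [hp.2]
    rfl

end

end Vale.Agent.P286.H697
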