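import Vale.Agent.P286.H710.OmM2
import Vale.Agent.P286.H847.GD2
import Vale.Agent.P286.St.TD

/-!
# Families of differential graded modules over the algebras of differential forms
-/

namespace Vale.Agent.P286.H697

open CategoryTheory Vale.Agent.P286.H710 Vale.Agent.P286.H847 Vale.Agent.P286.St

noncomputable section

section Sgz

variable {A : Type} [CommRing A] [Algebra ℂ A]

/-- The power `n` of the parity automorphism. -/
def Om.sgz (n : ℤ) : Om ℂ A →ₐ[A] Om ℂ A := if Even n then AlgHom.id A _ else Om.sg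

theorem Om.sgz_even {n : ℤ} (h : Even n) (w : Om ℂ A) : Om.sgz n w = w := by
  rw [Om.sgz, if_pos h]; rfl

theorem Om.sgz_odd {n : ℤ} (h : ¬ Even n) (w : Om ℂ A) : Om.sgz n w = Om.sg w := by
  rw [Om.sgz, if_neg h]

@[simp] theorem Om.sgz_zero (w : Om ℂ A) : Om.sgz 0 w = w := Om.sgz_even (by simp) w

theorem Om.sg_sg (w : Om ℂ A) : Om.sg (Om.sg w) = w := CliffordAlgebra.involute_involute w

theorem Om.sgz_sgz (m n : ℤ) (w : Om ℂ A) : Om.sgz m (Om.sgz n w) = Om.sgz (m + n) w := by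
  by_cases h1 : Even m <;> by_cases h2 : Even n
  · rw [Om.sgz_even h1, Om.sgz_even h2, Om.sgz_even (h1.add h2)]
  · rw [Om.sgz_even h1, Om.sgz_odd h2, Om.sgz_odd (fun h => h2 ((Int.even_add.1 h).1 h1))]
  · rw [Om.sgz_odd h1, Om.sgz_even h2, Om.sgz_odd (fun h => h1 ((Int.even_add.1 h).2 h2))]
  · rw [Om.sgz_odd h1, Om.sgz_odd h2, Om.sg_sg, Om.sgz_even]
    exact Int.even_add.2 ⟨fun h => absurd h h1, fun h => absurd h h2⟩

theorem Om.sgz_one (w : Om ℂ A) : Om.sgz 1 w = Om.sg w := Om.sgz_odd (by decide) w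

theorem Om.sgz_sg (n : ℤ) (w : Om ℂ A) : Om.sgz n (Om.sg w) = Om.sgz (n + 1) w := by
  rw [← Om.sgz_one, Om.sgz_sgz]

theorem Om.sg_sgz (n : ℤ) (w : Om ℂ A) : Om.sg (Om.sgz n w) = Om.sgz (n + 1) w := by
  rw [← Om.sgz_one, Om.sgz_sgz, add_comm]

theorem Om.sgz_mem (n : ℤ) {p : ℕ} {w : Om ℂ A} (hw : w ∈ Om.gr ℂ A p) :
    Om.sgz n w ∈ Om.gr ℂ A p := by
  by_cases h : Even n
  · rwa [Om.sgz_even h]
  · rw [Om.sgz_odd h]; exact Om.sg_mem hw

/-- `d` and the power of the parity automorphism. -/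
theorem Om.d_sgz (n : ℤ) (w : Om ℂ A) : Om.d (Om.sgz n w) = (n.negOnePow : ℤ) • Om.sgz n (Om.d w) := by
  by_cases h : Even n
  · rw [Om.sgz_even h, Om.sgz_even h, Int.negOnePow_even n h]
    simp
  · rw [Om.sgz_odd h, Om.sgz_odd h, Om.d_sg, Int.negOnePow_odd n (Int.not_even_iff_odd.1 h)]
    simp

theorem Om.sgz_dd (n : ℤ) (a : A) :
    Om.sgz n (Om.dd a : Om ℂ A) = (n.negOnePow : ℤ) • Om.dd a := by
  by_cases h : Even n
  · rw [Om.sgz_even h, Int.negOnePow_even n h]
    simp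
  · rw [Om.sgz_odd h, Om.sg_dd, Int.negOnePow_odd n (Int.not_even_iff_odd.1 h)]
    simp

theorem Om.pb_sgz {B : Type} [CommRing B] [Algebra ℂ B] (f : A →ₐ[ℂ] B) (n : ℤ) (w : Om ℂ A) :
    Om.pb f (Om.sgz n w) = Om.sgz n (Om.pb f w) := by
  by_cases h : Even n
  · rw [Om.sgz_even h, Om.sgz_even h]
  · rw [Om.sgz_odd h, Om.sgz_odd h, Om.pb_sg]

end Sgz

/-- A differential graded module over the algebra of differential forms of `A`. -/
structure OmM (A : Type) [CommRing A] [Algebra ℂ A] : Type 1 where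
  M : GD
  [am : Module A M.V]
  [mod : Module (Om ℂ A) M.V]
  [tow : IsScalarTower ℂ (Om ℂ A) M.V]
  [tw : IsScalarTower ℂ A M.V]
  [tw' : IsScalarTower A (Om ℂ A) M.V]
  leib : ∀ (w : Om ℂ A) (x : M.V), M.d (w • x) = Om.d w • x + Om.sg w • M.d x
  smul_gr : ∀ (p : ℕ) (m : ℤ) (w : Om ℂ A) (x : M.V), w ∈ Om.gr ℂ A p → x ∈ M.gr m →
    w • x ∈ M.gr (m + p)

attribute [instance] OmM.am OmM.mod OmM.tow OmM.tw OmM.tw'

/-- A family of differential graded modules over the algebras of differential forms of the test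
objects, with strictly functorial transition maps. -/
structure OmF (T : TSite) : Type 1 where
  F : ∀ X : T.C, OmM (T.R X)
  t : ∀ {X Y : T.C}, (X ⟶ Y) → GD.Hom (F X).M (F Y).M
  t_smul : ∀ {X Y : T.C} (φ : X ⟶ Y) (w : Om ℂ (T.R X)) (x : (F X).M.V),
    (t φ).f (w • x) = Om.pb (T.f φ) w • (t φ).f x
  t_id : ∀ (X : T.C) (x : (F X).M.V), (t (𝟙 X)).f x = x
  t_comp : ∀ {X Y Z : T.C} (φ : X ⟶ Y) (ψ : Y ⟶ Z) (x : (F X).M.V),
    (t (φ ≫ ψ)).f x = (t ψ).f ((t φ).f x)

namespace OmF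

variable {T : TSite}

/-- Cochains of degree `n`. -/
@[ext]
structure Coch (F F' : OmF T) (n : ℤ) where
  f : ∀ X : T.C, (F.F X).M.V →ₗ[ℂ] (F'.F X).M.V
  deg : ∀ (X : T.C) (m : ℤ) (x : (F.F X).M.V), x ∈ (F.F X).M.gr m → f X x ∈ (F'.F X).M.gr (m + n)
  smul : ∀ (X : T.C) (w : Om ℂ (T.R X)) (x : (F.F X).M.V), f X (w • x) = Om.sgz n w • f X x
  tr : ∀ {X Y : T.C} (φ : X ⟶ Y) (x : (F.F X).M.V), f Y ((F.t φ).f x) = (F'.t φ).f (f X x)

namespace Coch

variable {F F' F'' : OmF T} {n : ℤ}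

instance : Zero (Coch F F' n) := ⟨⟨fun _ => 0, fun _ _ _ _ => zero_mem _, by simp, by simp⟩⟩

instance : Add (Coch F F' n) := ⟨fun z w => ⟨fun X => z.f X + w.f X,
  fun X m x h => add_mem (z.deg X m x h) (w.deg X m x h), by simp [z.smul, w.smul],
  by simp [z.tr, w.tr]⟩⟩

instance : Neg (Coch F F' n) := ⟨fun z => ⟨fun X => - z.f X,
  fun X m x h => neg_mem (z.deg X m x h), by simp [z.smul], by simp [z.tr]⟩⟩

instance : Sub (Coch F F' n) := ⟨fun z w => ⟨fun X => z.f X - w.f X,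
  fun X m x h => sub_mem (z.deg X m x h) (w.deg X m x h), by simp [z.smul, w.smul, smul_sub],
  by simp [z.tr, w.tr]⟩⟩

theorem smul_comm' {A : Type} [CommRing A] [Algebra ℂ A] (M : OmM A) (c : ℂ) (w : Om ℂ A)
    (x : M.M.V) : c • (w • x) = w • (c • x) := by
  rw [← smul_assoc, Algebra.smul_def, Algebra.commutes, mul_smul, algebraMap_smul]

instance : SMul ℂ (Coch F F' n) := ⟨fun c z => ⟨fun X => c • z.f X,
  fun X m x h => Submodule.smul_mem _ c (z.deg X m x h), fun X w x => by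
    rw [LinearMap.smul_apply, LinearMap.smul_apply, z.smul, smul_comm'], by simp [z.tr]⟩⟩

instance : SMul ℕ (Coch F F' n) := ⟨nsmulRec⟩
instance : SMul ℤ (Coch F F' n) := ⟨zsmulRec⟩

@[simp] theorem zero_f (X : T.C) : (0 : Coch F F' n).f X = 0 := rfl
@[simp] theorem add_f (z w : Coch F F' n) (X : T.C) : (z + w).f X = z.f X + w.f X := rfl
@[simp] theorem neg_f (z : Coch F F' n) (X : T.C) : (-z).f X = - z.f X := rfl
@[simp] theorem sub_f (z w : Coch F F' n) (X : T.C) : (z - w).f X = z.f X - w.f X := rfl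
@[simp] theorem smul_f (c : ℂ) (z : Coch F F' n) (X : T.C) : (c • z).f X = c • z.f X := rfl

theorem ext' {z w : Coch F F' n} (h : ∀ X x, z.f X x = w.f X x) : z = w :=
  Coch.ext (funext fun X => LinearMap.ext (h X))

instance : AddCommGroup (Coch F F' n) where
  add_assoc f g h := by apply ext'; intro X x; simp [add_assoc]
  zero_add f := by apply ext'; intro X x; simp
  add_zero f := by apply ext'; intro X x; simp
  neg_add_cancel f := by apply ext'; intro X x; simp
  add_comm f g := by apply ext'; intro X x; simp [add_comm]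
  sub_eq_add_neg f g := by apply ext'; intro X x; simp [sub_eq_add_neg]
  nsmul := nsmulRec
  zsmul := zsmulRec

instance : Module ℂ (Coch F F' n) where
  one_smul f := by apply ext'; intro X x; simp
  mul_smul c c' f := by apply ext'; intro X x; simp [mul_smul]
  smul_zero c := by apply ext'; intro X x; simp
  smul_add c f g := by apply ext'; intro X x; simp
  add_smul c c' f := by apply ext'; intro X x; simp [add_smul]
  zero_smul f := by apply ext'; intro X x; simp

/-- The identity. -/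
def one (F : OmF T) : Coch F F 0 :=
  ⟨fun _ => LinearMap.id, fun _ m x h => by simpa using h, fun _ w x => by simp,
    fun _ _ => rfl⟩

/-- The composition (first `z`, then `w`). -/
def cmp {m n p : ℤ} (z : Coch F F' m) (w : Coch F' F'' n) (h : m + n = p) : Coch F F'' p :=
  ⟨fun X => (w.f X).comp (z.f X), fun X k x hx => by
      have := w.deg X _ _ (z.deg X k x hx)
      rwa [add_assoc, h] at this,
    fun X a x => by
      rw [LinearMap.comp_apply, z.smul, w.smul, Om.sgz_sgz, add_comm n m, h]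
      rfl,
    fun φ x => by simp [z.tr, w.tr]⟩

/-- The differential of cochains. -/
def dl {n p : ℤ} (z : Coch F F' n) (h : n + 1 = p) : Coch F F' p :=
  ⟨fun X => (F'.F X).M.d.comp (z.f X) - (n.negOnePow : ℤ) • (z.f X).comp (F.F X).M.d,
    fun X k x hx => by
      have h1 := (F'.F X).M.dgr' (n := k + p) (by omega) (z.deg X k x hx)
      have h2 := z.deg X _ _ ((F.F X).M.dgr k x hx)
      rw [show k + 1 + n = k + p by omega] at h2
      exact sub_mem h1 (zsmul_mem h2 _),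
    fun X a x => by
      simp only [LinearMap.sub_apply, LinearMap.comp_apply, LinearMap.smul_apply, z.smul,
        (F.F X).leib, (F'.F X).leib, map_add, smul_add, smul_sub]
      rw [Om.sg_sgz, Om.sgz_sg, h, Om.d_sgz]
      have e1 : ∀ (k : ℤ) (w : Om ℂ (T.R X)) (y : (F'.F X).M.V), (k • w) • y = k • (w • y) :=
        fun k w y => smul_assoc k w y
      have e2 : ∀ (k : ℤ) (w : Om ℂ (T.R X)) (y : (F'.F X).M.V), k • (w • y) = w • (k • y) :=
        fun k w y => smul_comm k w y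
      rw [e1, e2 _ (Om.sgz p a)]
      abel,
    fun {X Y} φ x => by
      simp only [LinearMap.sub_apply, LinearMap.comp_apply, LinearMap.smul_apply, map_sub,
        map_zsmul]
      rw [z.tr, ← (F'.t φ).comm, ← (F.t φ).comm, z.tr]⟩

end Coch

end OmF

end

end Vale.Agent.P286.H697
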