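import Vale.Agent.P286.H697.DRq3

/-!
# The de Rham complex preserves quasi-isomorphisms: the cone
-/

namespace Vale.Agent.P286.H697

open Vale.Agent.P286.H710 Vale.Agent.P286.H847 TensorProduct

noncomputable section

namespace DGM

variable {A : Type} [CommRing A] [Algebra ℂ A] {K L : DGM A}

/-- The cone of a morphism of complexes of `D`-modules. -/
def Cn (u : Mor K L) : DGM A where
  M := GD.Cone u.u
  mod := inferInstanceAs (Module A (L.M.V × K.M.V))
  tow := inferInstanceAs (IsScalarTower ℂ A (L.M.V × K.M.V))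
  C :=
    { act := fun v x => (L.C.act v x.1, K.C.act v x.2)
      act_add := fun v x y => Prod.ext (L.C.act_add v _ _) (K.C.act_add v _ _)
      add_act := fun v w x => Prod.ext (L.C.add_act v w _) (K.C.add_act v w _)
      smul_act := fun a v x => Prod.ext (L.C.smul_act a v _) (K.C.smul_act a v _)
      leibniz := fun v a x => Prod.ext (L.C.leibniz v a _) (K.C.leibniz v a _)
      lie_act := fun v w x => Prod.ext (L.C.lie_act v w _) (K.C.lie_act v w _) }
  d_smul a x := by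
    refine Prod.ext ?_ ?_
    · change L.M.d (a • x.1) + u.u.f (a • x.2) = a • (L.M.d x.1 + u.u.f x.2)
      rw [L.d_smul, u.smul, smul_add]
    · change -(K.M.d (a • x.2)) = a • -(K.M.d x.2)
      rw [K.d_smul, smul_neg]
  d_act v x := by
    refine Prod.ext ?_ ?_
    · change L.M.d (L.C.act v x.1) + u.u.f (K.C.act v x.2) =
        L.C.act v (L.M.d x.1 + u.u.f x.2)
      rw [L.d_act, u.act, L.C.act_add]
    · change -(K.M.d (K.C.act v x.2)) = K.C.act v (-(K.M.d x.2))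
      rw [K.d_act, K.C.act_neg]
  gr_smul m a x hx := ⟨L.gr_smul m a _ hx.1, K.gr_smul (m + 1) a _ hx.2⟩
  gr_act m v x hx := ⟨L.gr_act m v _ hx.1, K.gr_act (m + 1) v _ hx.2⟩

theorem cone_sum (P : Dec K) (Q : Dec L) (x : L.M.V × K.M.V) :
    ∃ s : Finset ℤ, x = ∑ i ∈ s, LinearMap.prodMap (Q.ρ i) (P.ρ (i + 1)) x := by
  classical
  obtain ⟨s, hs⟩ := Q.sum x.1
  obtain ⟨t, ht⟩ := P.sum x.2
  refine ⟨s ∪ t.image (fun i => i - 1), Prod.ext ?_ ?_⟩
  · rw [Prod.fst_sum]
    conv_lhs => rw [hs]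
    refine Finset.sum_subset Finset.subset_union_left fun i _ hi => ?_
    change Q.ρ i x.1 = 0
    rw [hs, map_sum]
    refine Finset.sum_eq_zero fun j hj => Q.ne i j _ (Q.mem j _) ?_
    rintro rfl
    exact hi hj
  · rw [Prod.snd_sum]
    have h1 : x.2 = ∑ i ∈ t.image (fun i => i - 1), P.ρ (i + 1) x.2 := by
      rw [Finset.sum_image (by intro a _ b _ h; simpa using h)]
      conv_lhs => rw [ht]
      exact Finset.sum_congr rfl fun i _ => by rw [sub_add_cancel]
    conv_lhs => rw [h1]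
    refine Finset.sum_subset Finset.subset_union_right fun i _ hi => ?_
    change P.ρ (i + 1) x.2 = 0
    rw [ht, map_sum]
    refine Finset.sum_eq_zero fun j hj => P.ne (i + 1) j _ (P.mem j _) ?_
    rintro rfl
    exact hi (Finset.mem_image.2 ⟨i + 1, hj, by ring⟩)

/-- Homogeneous projections on the cone. -/
def Dec.cone (P : Dec K) (Q : Dec L) (u : Mor K L) : Dec (Cn u) where
  ρ i := LinearMap.prodMap (Q.ρ i) (P.ρ (i + 1))
  mem i x := ⟨Q.mem i _, P.mem (i + 1) _⟩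
  same i x hx := Prod.ext (Q.same i _ hx.1) (P.same (i + 1) _ hx.2)
  ne i j x hx h := Prod.ext (Q.ne i j _ hx.1 h) (P.ne (i + 1) (j + 1) _ hx.2 (by omega))
  sum x := cone_sum P Q x

/-- The inclusion of the target. -/
def cI (u : Mor K L) : L.M.V →ₗ[A] (Cn u).M.V := LinearMap.inl A L.M.V K.M.V

/-- The inclusion of the source (not a morphism of complexes). -/
def cJ (u : Mor K L) : K.M.V →ₗ[A] (Cn u).M.V := LinearMap.inr A L.M.V K.M.V

/-- The projections. -/
def cP (u : Mor K L) : (Cn u).M.V →ₗ[A] L.M.V := LinearMap.fst A L.M.V K.M.V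

/-- The projections. -/
def cQ (u : Mor K L) : (Cn u).M.V →ₗ[A] K.M.V := LinearMap.snd A L.M.V K.M.V

abbrev lT {V W : Type} [AddCommGroup V] [Module A V] [AddCommGroup W] [Module A W]
    (u : V →ₗ[A] W) : DR ℂ A V →ₗ[A] DR ℂ A W := LinearMap.lTensor (Om ℂ A) u

theorem lT_comp {V W Z : Type} [AddCommGroup V] [Module A V] [AddCommGroup W] [Module A W]
    [AddCommGroup Z] [Module A Z] (u : V →ₗ[A] W) (v : W →ₗ[A] Z) (x : DR ℂ A V) :
    lT v (lT u x) = lT (v ∘ₗ u) x := by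
  rw [lT, lT, lT, LinearMap.lTensor_comp]
  rfl

/-- `sg ⊗ 1`. -/
def sg1 {V : Type} [AddCommGroup V] [Module A V] : DR ℂ A V →ₗ[A] DR ℂ A V := sgT LinearMap.id

theorem sgT_eq {V W : Type} [AddCommGroup V] [Module A V] [AddCommGroup W] [Module A W]
    (u : V →ₗ[A] W) (x : DR ℂ A V) : sgT u x = lT u (sg1 x) := by
  induction x using DR.induction with
  | zero => simp
  | tmul w x => rfl
  | add x y hx hy => rw [map_add, hx, hy, map_add, map_add]

theorem sg1_lT {V W : Type} [AddCommGroup V] [Module A V] [AddCommGroup W] [Module A W]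
    (u : V →ₗ[A] W) (x : DR ℂ A V) : sg1 (lT u x) = lT u (sg1 x) := by
  induction x using DR.induction with
  | zero => simp
  | tmul w x => rfl
  | add x y hx hy => rw [map_add, map_add, hx, hy, map_add, map_add]

theorem sg1_sg1 {V : Type} [AddCommGroup V] [Module A V] (x : DR ℂ A V) : sg1 (sg1 x) = x := by
  rw [sg1, sgT_sgT, LinearMap.comp_id, LinearMap.lTensor_id, LinearMap.id_apply]

theorem sg1_dR {V : Type} [AddCommGroup V] [Module A V] (b : DB ℂ A) (C : FC ℂ A V)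
    (x : DR ℂ A V) : sg1 (dR b C x) = - dR b C (sg1 x) :=
  sgT_dR b C C LinearMap.id (fun _ _ => rfl) x

theorem sg1_mem (K : DGM A) {m : ℤ} {x : DR ℂ A K.M.V} (hx : x ∈ K.gr m) : sg1 x ∈ K.gr m := by
  induction hx using K.gr_ind with
  | zero => rw [map_zero]; exact zero_mem _
  | tmul p i h w hw x hx => exact K.tmul_mem h (Om.sg_mem hw) hx
  | add x y _ _ hx hy => rw [map_add]; exact add_mem hx hy

theorem lT_add {V W : Type} [AddCommGroup V] [Module A V] [AddCommGroup W] [Module A W]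
    (u v : V →ₗ[A] W) (x : DR ℂ A V) : lT (u + v) x = lT u x + lT v x := by
  rw [lT, LinearMap.lTensor_add]
  rfl

theorem lT_neg {V W : Type} [AddCommGroup V] [Module A V] [AddCommGroup W] [Module A W]
    (u : V →ₗ[A] W) (x : DR ℂ A V) : lT (-u) x = - lT u x := by
  rw [lT, LinearMap.lTensor_neg]
  rfl

/-- The first component of the differential of the cone. -/
theorem cP_D (b : DB ℂ A) (u : Mor K L) (x : DR ℂ A (Cn u).M.V) :
    lT (cP u) ((Cn u).D b x) = L.D b (lT (cP u) x) + lT u.lin (sg1 (lT (cQ u) x)) := by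
  rw [D_apply, D_apply, map_add, lT_dR b (Cn u).C L.C (cP u) (fun _ _ => rfl), add_assoc]
  congr 1
  have h : cP u ∘ₗ (Cn u).dA = L.dA ∘ₗ cP u + u.lin ∘ₗ cQ u := LinearMap.ext fun _ => rfl
  rw [sgT_eq, sgT_eq, lT_comp, h, lT_add, ← lT_comp, ← lT_comp, sg1_lT, sg1_lT]

/-- The second component of the differential of the cone. -/
theorem cQ_D (b : DB ℂ A) (u : Mor K L) (x : DR ℂ A (Cn u).M.V) :
    lT (cQ u) ((Cn u).D b x) = - sg1 (K.D b (sg1 (lT (cQ u) x))) := by
  rw [D_apply, D_apply, map_add, lT_dR b (Cn u).C K.C (cQ u) (fun _ _ => rfl), map_add, sg1_dR,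
    sg1_sg1, neg_add, neg_neg]
  congr 1
  have h : cQ u ∘ₗ (Cn u).dA = -(K.dA ∘ₗ cQ u) := LinearMap.ext fun _ => rfl
  rw [sgT_eq, sgT_eq, lT_comp, h, lT_neg, ← lT_comp, sg1_lT, sg1_lT, sg1_sg1]

theorem cP_mem (u : Mor K L) {m : ℤ} {x : DR ℂ A (Cn u).M.V} (hx : x ∈ (Cn u).gr m) :
    lT (cP u) x ∈ L.gr m := by
  induction hx using (Cn u).gr_ind with
  | zero => rw [map_zero]; exact zero_mem _
  | tmul p i h w hw x hx => exact L.tmul_mem h hw hx.1
  | add x y _ _ hx hy => rw [map_add]; exact add_mem hx hy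

theorem cQ_mem (u : Mor K L) {m : ℤ} {x : DR ℂ A (Cn u).M.V} (hx : x ∈ (Cn u).gr m) :
    lT (cQ u) x ∈ K.gr (m + 1) := by
  induction hx using (Cn u).gr_ind with
  | zero => rw [map_zero]; exact zero_mem _
  | tmul p i h w hw x hx => exact K.tmul_mem (i := i + 1) (by omega) hw hx.2
  | add x y _ _ hx hy => rw [map_add]; exact add_mem hx hy

theorem cI_mem (u : Mor K L) {m : ℤ} {x : DR ℂ A L.M.V} (hx : x ∈ L.gr m) :
    lT (cI u) x ∈ (Cn u).gr m := by
  induction hx using L.gr_ind with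
  | zero => rw [map_zero]; exact zero_mem _
  | tmul p i h w hw x hx => exact (Cn u).tmul_mem h hw ⟨hx, zero_mem _⟩
  | add x y _ _ hx hy => rw [map_add]; exact add_mem hx hy

theorem cJ_mem (u : Mor K L) {m : ℤ} {x : DR ℂ A K.M.V} (hx : x ∈ K.gr (m + 1)) :
    lT (cJ u) x ∈ (Cn u).gr m := by
  induction hx using K.gr_ind with
  | zero => rw [map_zero]; exact zero_mem _
  | tmul p i h w hw x hx =>
    refine (Cn u).tmul_mem (i := i - 1) (by omega) hw ⟨zero_mem _, ?_⟩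
    change x ∈ K.M.gr (i - 1 + 1)
    rwa [sub_add_cancel]
  | add x y _ _ hx hy => rw [map_add]; exact add_mem hx hy

theorem cone_eta (u : Mor K L) (x : DR ℂ A (Cn u).M.V) :
    lT (cI u) (lT (cP u) x) + lT (cJ u) (lT (cQ u) x) = x := by
  rw [lT_comp, lT_comp, ← lT_add]
  have h : cI u ∘ₗ cP u + cJ u ∘ₗ cQ u = LinearMap.id := by
    apply LinearMap.ext
    intro x
    refine Prod.ext ?_ ?_
    · change x.1 + 0 = x.1
      rw [add_zero]
    · change 0 + x.2 = x.2
      rw [zero_add]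
  rw [h, lT, LinearMap.lTensor_id, LinearMap.id_apply]

theorem cP_cI (u : Mor K L) (x : DR ℂ A L.M.V) : lT (cP u) (lT (cI u) x) = x := by
  rw [lT_comp]
  have h : cP u ∘ₗ cI u = LinearMap.id := LinearMap.ext fun _ => rfl
  rw [h, lT, LinearMap.lTensor_id, LinearMap.id_apply]

theorem cQ_cJ (u : Mor K L) (x : DR ℂ A K.M.V) : lT (cQ u) (lT (cJ u) x) = x := by
  rw [lT_comp]
  have h : cQ u ∘ₗ cJ u = LinearMap.id := LinearMap.ext fun _ => rfl
  rw [h, lT, LinearMap.lTensor_id, LinearMap.id_apply]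

theorem cP_cJ (u : Mor K L) (x : DR ℂ A K.M.V) : lT (cP u) (lT (cJ u) x) = 0 := by
  rw [lT_comp]
  have h : cP u ∘ₗ cJ u = 0 := LinearMap.ext fun _ => rfl
  rw [h, lT, LinearMap.lTensor_zero]
  rfl

theorem cQ_cI (u : Mor K L) (x : DR ℂ A L.M.V) : lT (cQ u) (lT (cI u) x) = 0 := by
  rw [lT_comp]
  have h : cQ u ∘ₗ cI u = 0 := LinearMap.ext fun _ => rfl
  rw [h, lT, LinearMap.lTensor_zero]
  rfl

/-- **The de Rham complex preserves quasi-isomorphisms.** -/
theorem qis_DRg (b : DB ℂ A) (P : Dec K) (Q : Dec L) (u : Mor K L) (hu : GD.Qis u.u) :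
    GD.Qis (DRg.map b u) := by
  have hex := exact_DRg (P.cone Q u) b ((GD.qis_iff_exact_cone u.u).1 hu)
  rw [GD.qis_iff_exact_cone]
  rintro m ⟨(x : DR ℂ A L.M.V), (y : DR ℂ A K.M.V)⟩ ⟨(hx : x ∈ L.gr m), (hy : y ∈ K.gr (m + 1))⟩ hd
  have h1 : L.D b x + lT u.lin y = 0 := congrArg Prod.fst hd
  have h2 : -(K.D b y) = 0 := congrArg Prod.snd hd
  let z : DR ℂ A (Cn u).M.V := lT (cI u) x + lT (cJ u) (sg1 y)
  have hz1 : lT (cP u) z = x := by rw [map_add, cP_cI, cP_cJ, add_zero]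
  have hz2 : lT (cQ u) z = sg1 y := by rw [map_add, cQ_cI, cQ_cJ, zero_add]
  have hz : z ∈ (Cn u).gr m := add_mem (cI_mem u hx) (cJ_mem u (sg1_mem K hy))
  have hDz : (Cn u).D b z = 0 := by
    rw [← cone_eta u ((Cn u).D b z), cP_D, cQ_D, hz1, hz2, sg1_sg1, h1, neg_eq_zero.1 h2]
    simp
  obtain ⟨(w : DR ℂ A (Cn u).M.V), (hw : w ∈ (Cn u).gr (m - 1)), hw'⟩ := hex m z hz hDz
  have hw2 : (Cn u).D b w = z := hw'
  refine ⟨((lT (cP u) w, sg1 (lT (cQ u) w)) : DR ℂ A L.M.V × DR ℂ A K.M.V),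
    ⟨cP_mem u hw, ?_⟩, ?_⟩
  · exact sg1_mem K (cQ_mem u hw)
  · refine Prod.ext ?_ ?_
    · change L.D b (lT (cP u) w) + lT u.lin (sg1 (lT (cQ u) w)) = x
      rw [← cP_D, hw2, hz1]
    · change -(K.D b (sg1 (lT (cQ u) w))) = y
      have h3 := cQ_D b u w
      rw [hw2, hz2] at h3
      have h4 := congrArg sg1 h3
      rw [sg1_sg1, map_neg, sg1_sg1] at h4
      exact h4.symm

end DGM

end

end Vale.Agent.P286.H697
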