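import Vale.Agent.P286.H697.OmF
import Vale.Agent.P286.H697.DRq4
import Vale.Agent.P286.H389.Jg

/-!
# The de Rham complex of a complex of `D`-modules on a test category
-/

namespace Vale.Agent.P286.H697

open CategoryTheory Vale.Agent.P286.H710 Vale.Agent.P286.H847 Vale.Agent.P286.St TensorProduct

noncomputable section

variable {T : TSite}

/-- The module structure on the sections over `X`. -/
@[reducible] def gmod (K : GTD T) (X : T.C) : Module (T.R X) (K.F X).V where
  smul a x := K.fn X a x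
  one_smul x := by
    change K.fn X 1 x = x
    rw [← map_one (algebraMap ℂ (T.R X)), (K.dmod X).const, one_smul]
  mul_smul a b x := (K.dmod X).fn_mul a b x
  smul_zero a := map_zero (K.fn X a)
  smul_add a x y := map_add (K.fn X a) x y
  add_smul a b x := (K.dmod X).fn_add a b x
  zero_smul x := by
    change K.fn X 0 x = 0
    rw [← map_zero (algebraMap ℂ (T.R X)), (K.dmod X).const, zero_smul]

/-- The complex of `D`-modules of the sections over `X`. -/
def dgm (K : GTD T) (X : T.C) : DGM (T.R X) :=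
  letI := gmod K X
  { M := K.F X
    mod := gmod K X
    tow := ⟨fun c a x => by
      change K.fn X (c • a) x = c • K.fn X a x
      rw [Algebra.smul_def, (K.dmod X).fn_mul, (K.dmod X).const]⟩
    C :=
      { act := fun v x => K.vf X v x
        act_add := fun v x y => map_add (K.vf X v) x y
        add_act := fun v w x => (K.dmod X).vf_add v w x
        smul_act := fun a v x => (K.dmod X).vf_smul a v x
        leibniz := fun v a x => (K.dmod X).vf_fn v a x
        lie_act := fun v w x => (K.dmod X).vf_lie v w x }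
    d_smul := fun a x => K.fn_d X a x
    d_act := fun v x => K.vf_d X v x
    gr_smul := fun m a x hx => K.fn_gr X a m x hx
    gr_act := fun m v x hx => K.vf_gr X v m x hx }

theorem dgm_smul (K : GTD T) (X : T.C) (a : T.R X) (x : (dgm K X).M.V) : a • x = K.fn X a x := rfl

theorem dgm_act (K : GTD T) (X : T.C) (v : (T.A X).Der) (x : (dgm K X).M.V) :
    (dgm K X).C.act v x = K.vf X v x := rfl

/-- A dual basis of the differentials of a test object. -/
def bT (T : TSite) (X : T.C) : DB ℂ (T.R X) := (exists_DB (T.R X)).some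

/-- The transition maps as additive maps. -/
def tA (K : GTD T) {X Y : T.C} (φ : X ⟶ Y) : (dgm K X).M.V →+ (dgm K Y).M.V :=
  (K.tr φ).f.toAddMonoidHom

theorem tA_smul (K : GTD T) {X Y : T.C} (φ : X ⟶ Y) (a : T.R X) (x : (dgm K X).M.V) :
    tA K φ (a • x) = T.f φ a • tA K φ x := (K.trans X Y φ).fn a x

theorem tA_hor (hT : ∀ {X Y : T.C} (φ : X ⟶ Y), T.dl φ = 1) (K : GTD T) {X Y : T.C} (φ : X ⟶ Y) :
    Hor (T.f φ) (dgm K X).C (dgm K Y).C (tA K φ) := by
  intro w n c v h m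
  have h1 := (K.trans X Y φ).vf w n c v h m
  rw [hT φ] at h1
  have h2 : ∀ y : (K.F Y).V, K.fn Y 1 y = y := fun y => by
    rw [← map_one (algebraMap ℂ (T.R Y)), (K.dmod Y).const, one_smul]
  have h3 : w 1 = 0 := Derivation.map_one_eq_zero w
  have h4 : ∀ y : (K.F Y).V, K.fn Y 0 y = 0 := fun y => by
    rw [← map_zero (algebraMap ℂ (T.R Y)), (K.dmod Y).const, zero_smul]
  rw [h3, h4, smul_zero, sub_zero, h2, h2] at h1
  exact h1

section Pb

variable {A B : Type} [CommRing A] [Algebra ℂ A] [CommRing B] [Algebra ℂ B]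

theorem pbT_csmul' {V W : Type} [AddCommGroup V] [Module A V] [AddCommGroup W] [Module B W]
    (f : A →ₐ[ℂ] B) (t : V →+ W) (ht : ∀ (a : A) m, t (a • m) = f a • t m) (c : ℂ)
    (x : DR ℂ A V) : pbT f t ht (c • x) = c • pbT f t ht x := by
  have h : ∀ y : DR ℂ A V, c • y = (algebraMap A (Om ℂ A) (algebraMap ℂ A c)) • y := by
    intro y
    rw [algebraMap_smul, algebraMap_smul]
  have h' : ∀ y : DR ℂ B W, c • y = (algebraMap B (Om ℂ B) (algebraMap ℂ B c)) • y := by
    intro y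
    rw [algebraMap_smul, algebraMap_smul]
  rw [h, h', pbT_smul, Om.pb_alg, AlgHom.commutes]

/-- The pull-back as a linear map. -/
def pbC {V W : Type} [AddCommGroup V] [Module A V] [AddCommGroup W] [Module B W]
    (f : A →ₐ[ℂ] B) (t : V →+ W) (ht : ∀ (a : A) m, t (a • m) = f a • t m) :
    DR ℂ A V →ₗ[ℂ] DR ℂ B W where
  toFun := pbT f t ht
  map_add' := map_add _
  map_smul' := pbT_csmul' f t ht

theorem pbC_apply {V W : Type} [AddCommGroup V] [Module A V] [AddCommGroup W] [Module B W]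
    (f : A →ₐ[ℂ] B) (t : V →+ W) (ht : ∀ (a : A) m, t (a • m) = f a • t m) (x : DR ℂ A V) :
    pbC f t ht x = pbT f t ht x := rfl

theorem pbT_sgT {V W V' W' : Type} [AddCommGroup V] [Module A V] [AddCommGroup W] [Module B W]
    [AddCommGroup V'] [Module A V'] [AddCommGroup W'] [Module B W']
    (f : A →ₐ[ℂ] B) (t : V →+ W) (ht : ∀ (a : A) m, t (a • m) = f a • t m)
    (t' : V' →+ W') (ht' : ∀ (a : A) m, t' (a • m) = f a • t' m)
    (u : V →ₗ[A] V') (u' : W →ₗ[B] W') (h : ∀ x, t' (u x) = u' (t x)) (x : DR ℂ A V) :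
    pbT f t' ht' (sgT u x) = sgT u' (pbT f t ht x) := by
  induction x using DR.induction with
  | zero => simp
  | tmul w x => rw [sgT_tmul, pbT_tmul, pbT_tmul, sgT_tmul, Om.pb_sg, h]
  | add x y hx hy => rw [map_add, map_add, hx, hy, map_add, map_add]

end Pb

theorem tA_d (K : GTD T) {X Y : T.C} (φ : X ⟶ Y) (x : (dgm K X).M.V) :
    tA K φ ((dgm K X).dA x) = (dgm K Y).dA (tA K φ x) := (K.tr φ).comm x

theorem D_smul {A : Type} [CommRing A] [Algebra ℂ A] (b : DB ℂ A) (K : DGM A) (w : Om ℂ A)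
    (x : DR ℂ A K.M.V) : K.D b (w • x) = Om.d w • x + Om.sg w • K.D b x := by
  rw [DGM.D_apply, DGM.D_apply, dR_smul, sgT_smul, smul_add, add_assoc]

theorem DRg_smul_gr {A : Type} [CommRing A] [Algebra ℂ A] (K : DGM A) (p : ℕ) (m : ℤ)
    (w : Om ℂ A) (x : DR ℂ A K.M.V) (hw : w ∈ Om.gr ℂ A p) (hx : x ∈ K.gr m) :
    w • x ∈ K.gr (m + p) := by
  induction hx using K.gr_ind with
  | zero => rw [smul_zero]; exact zero_mem _
  | tmul q i h w' hw' x hx =>
    rw [smul_tmul', smul_eq_mul]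
    exact K.tmul_mem (p := p + q) (i := i) (by push_cast; omega) (Om.gr_mul hw hw') hx
  | add x y _ _ hx hy => rw [smul_add]; exact add_mem hx hy

/-- The de Rham complex of a complex of `D`-modules, as a module over the forms. -/
abbrev drO {A : Type} [CommRing A] [Algebra ℂ A] (b : DB ℂ A) (K : DGM A) : OmM A where
  M := DGM.DRg b K
  leib := D_smul b K
  smul_gr := DRg_smul_gr K

/-- The de Rham complex over `X`, as a module over the forms. -/
abbrev drM (K : GTD T) (X : T.C) : OmM (T.R X) := drO (bT T X) (dgm K X)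

theorem drt_comm (hT : ∀ {X Y : T.C} (φ : X ⟶ Y), T.dl φ = 1) (K : GTD T) {X Y : T.C} (φ : X ⟶ Y)
    (x : DR ℂ (T.R X) (dgm K X).M.V) :
    pbT (T.f φ) (tA K φ) (tA_smul K φ) ((dgm K X).D (bT T X) x) =
      (dgm K Y).D (bT T Y) (pbT (T.f φ) (tA K φ) (tA_smul K φ) x) := by
  rw [DGM.D_apply, DGM.D_apply, map_add, pbT_dR (T.f φ) (tA K φ) (tA_smul K φ) (bT T X) (bT T Y)
    (dgm K X).C (dgm K Y).C (tA_hor hT K φ), pbT_sgT (T.f φ) (tA K φ) (tA_smul K φ) (tA K φ)
    (tA_smul K φ) (dgm K X).dA (dgm K Y).dA (tA_d K φ)]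

theorem drt_deg (K : GTD T) {X Y : T.C} (φ : X ⟶ Y) (m : ℤ)
    (x : DR ℂ (T.R X) (dgm K X).M.V) (hx : x ∈ (dgm K X).gr m) :
    pbT (T.f φ) (tA K φ) (tA_smul K φ) x ∈ (dgm K Y).gr m := by
  induction hx using (dgm K X).gr_ind with
  | zero => rw [map_zero]; exact zero_mem _
  | tmul q i h w' hw' x hx =>
    rw [pbT_tmul]
    exact (dgm K Y).tmul_mem h (Om.pb_mem _ hw') ((K.tr φ).deg i x hx)
  | add x y _ _ hx hy => rw [map_add]; exact add_mem hx hy

/-- The transition maps of the de Rham complex. -/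
def drt (hT : H389.Str T) (K : GTD T) {X Y : T.C} (φ : X ⟶ Y) :
    GD.Hom (drM K X).M (drM K Y).M where
  f := pbC (T.f φ) (tA K φ) (tA_smul K φ)
  comm x := drt_comm hT.dl1 K φ x
  deg m x hx := drt_deg K φ m x hx

theorem drt_apply (hT : H389.Str T) (K : GTD T) {X Y : T.C} (φ : X ⟶ Y)
    (x : DR ℂ (T.R X) (dgm K X).M.V) :
    (drt hT K φ).f x = pbT (T.f φ) (tA K φ) (tA_smul K φ) x := rfl

theorem drt_id (hT : H389.Str T) (K : GTD T) (X : T.C) (x : DR ℂ (T.R X) (dgm K X).M.V) :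
    pbT (T.f (𝟙 X)) (tA K (𝟙 X)) (tA_smul K (𝟙 X)) x = x := by
  induction x using DR.induction with
  | zero => simp
  | tmul w x =>
    have h1 : tA K (𝟙 X) x = x := K.id X x
    rw [pbT_tmul, h1, hT.fid X, Om.pb_id]
  | add x y hx hy => rw [map_add, hx, hy]

theorem drt_comp (hT : H389.Str T) (K : GTD T) {X Y Z : T.C} (φ : X ⟶ Y) (ψ : Y ⟶ Z)
    (x : DR ℂ (T.R X) (dgm K X).M.V) :
    pbT (T.f (φ ≫ ψ)) (tA K (φ ≫ ψ)) (tA_smul K (φ ≫ ψ)) x =
      pbT (T.f ψ) (tA K ψ) (tA_smul K ψ) (pbT (T.f φ) (tA K φ) (tA_smul K φ) x) := by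
  induction x using DR.induction with
  | zero => simp
  | tmul w x =>
    have h1 : tA K (φ ≫ ψ) x = tA K ψ (tA K φ x) := K.comp X Y Z φ ψ x
    rw [pbT_tmul, pbT_tmul, pbT_tmul, h1, hT.fcomp φ ψ, Om.pb_pb]
  | add x y hx hy => rw [map_add, hx, hy, map_add, map_add]

/-- The de Rham complex of a complex of `D`-modules on a test category without twist. -/
def DRF (hT : H389.Str T) (K : GTD T) : OmF T where
  F X := drM K X
  t φ := drt hT K φ
  t_smul φ w x := pbT_smul (T.f φ) (tA K φ) (tA_smul K φ) w x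
  t_id X x := drt_id hT K X x
  t_comp φ ψ x := drt_comp hT K φ ψ x

section Sz

variable {A : Type} [CommRing A] [Algebra ℂ A]
variable {V W V' : Type} [AddCommGroup V] [Module A V] [AddCommGroup W] [Module A W]
  [AddCommGroup V'] [Module A V']

/-- The map `w ⊗ x ↦ (-1) ^ (n deg w) w ⊗ u x`. -/
def szT (n : ℤ) (u : V →ₗ[A] W) : DR ℂ A V →ₗ[A] DR ℂ A W :=
  TensorProduct.map (Om.sgz n).toLinearMap u

@[simp] theorem szT_tmul (n : ℤ) (u : V →ₗ[A] W) (w : Om ℂ A) (x : V) :
    szT n u (w ⊗ₜ[A] x) = Om.sgz n w ⊗ₜ[A] u x := rfl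

theorem szT_smul (n : ℤ) (u : V →ₗ[A] W) (w : Om ℂ A) (x : DR ℂ A V) :
    szT n u (w • x) = Om.sgz n w • szT n u x := by
  induction x using DR.induction with
  | zero => rw [smul_zero, map_zero, smul_zero]
  | tmul w' x => rw [smul_tmul', smul_eq_mul, szT_tmul, szT_tmul, smul_tmul', smul_eq_mul,
      map_mul]
  | add x y hx hy => rw [smul_add, map_add, map_add, hx, hy, smul_add]

theorem szT_add (n : ℤ) (u u' : V →ₗ[A] W) (x : DR ℂ A V) :
    szT n (u + u') x = szT n u x + szT n u' x := by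
  rw [szT, TensorProduct.map_add_right]
  rfl

theorem szT_szT (m n : ℤ) (u : V →ₗ[A] W) (u' : W →ₗ[A] V') (x : DR ℂ A V) :
    szT n u' (szT m u x) = szT (m + n) (u' ∘ₗ u) x := by
  induction x using DR.induction with
  | zero => simp
  | tmul w x => rw [szT_tmul, szT_tmul, szT_tmul, Om.sgz_sgz, add_comm n m]; rfl
  | add x y hx hy => rw [map_add, map_add, hx, hy, map_add]

theorem szT_nab (b : DB ℂ A) (C : FC ℂ A V) (C' : FC ℂ A W) (n : ℤ) (u : V →ₗ[A] W)
    (hu : ∀ v x, u (C.act v x) = C'.act v (u x)) (x : V) :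
    szT n u (nab b C x) = (n.negOnePow : ℤ) • nab b C' (u x) := by
  rw [nab_apply, nab_apply, map_sum, Finset.smul_sum]
  refine Finset.sum_congr rfl fun i _ => ?_
  rw [szT_tmul, hu, Om.sgz_dd, smul_tmul']

theorem D_szT (b : DB ℂ A) (K L : DGM A) (n : ℤ) (u v : K.M.V →ₗ[A] L.M.V)
    (hu : ∀ v x, u (K.C.act v x) = L.C.act v (u x))
    (hv : ∀ x, v x = L.M.d (u x) - (n.negOnePow : ℤ) • u (K.M.d x)) (x : DR ℂ A K.M.V) :
    L.D b (szT n u x) - (n.negOnePow : ℤ) • szT n u (K.D b x) = szT (n + 1) v x := by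
  induction x using DR.induction with
  | zero => simp
  | tmul w x =>
    rw [szT_tmul, szT_tmul, DGM.D_apply, DGM.D_apply, dR_tmul, dR_tmul, sgT_tmul, sgT_tmul,
      map_add, map_add, szT_tmul, szT_tmul, szT_smul, szT_nab b K.C L.C n u hu, hv,
      Om.sg_sgz, Om.sgz_sg, Om.d_sgz, smul_add, smul_add, smul_tmul',
      smul_comm (Om.sgz (n + 1) w), smul_smul, TensorProduct.tmul_sub]
    have h1 : ((n.negOnePow : ℤ) * (n.negOnePow : ℤ)) = 1 := by
      rw [← Units.val_mul, ← Int.negOnePow_add, Int.negOnePow_even _ ⟨n, rfl⟩]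
      rfl
    have h2 : ∀ (k : ℤ) (w : Om ℂ A) (y : L.M.V), w ⊗ₜ[A] (k • y) = k • (w ⊗ₜ[A] y) :=
      fun k w y => (smul_tmul k w y).symm
    rw [h1, one_smul, h2, DGM.dA_apply, DGM.dA_apply]
    abel
  | add x y hx hy =>
    rw [map_add (szT n u), map_add (L.D b), map_add (K.D b), map_add (szT n u), smul_add,
      map_add (szT (n + 1) v), ← hx, ← hy]
    abel

theorem szT_mem {K L : DGM A} (n : ℤ) (u : K.M.V →ₗ[A] L.M.V)
    (hu : ∀ (m : ℤ) x, x ∈ K.M.gr m → u x ∈ L.M.gr (m + n)) (m : ℤ) (x : DR ℂ A K.M.V)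
    (hx : x ∈ K.gr m) : szT n u x ∈ L.gr (m + n) := by
  induction hx using K.gr_ind with
  | zero => rw [map_zero]; exact zero_mem _
  | tmul p i h w hw x hx =>
    rw [szT_tmul]
    exact L.tmul_mem (i := i + n) (by omega) (Om.sgz_mem n hw) (hu i x hx)
  | add x y _ _ hx hy => rw [map_add]; exact add_mem hx hy

/-- The pull-back commutes with the signed maps. -/
theorem pbT_szT {B : Type} [CommRing B] [Algebra ℂ B] {W W' : Type} [AddCommGroup W] [Module B W]
    [AddCommGroup W'] [Module B W']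
    (f : A →ₐ[ℂ] B) (t : V →+ W) (ht : ∀ (a : A) m, t (a • m) = f a • t m)
    (t' : V' →+ W') (ht' : ∀ (a : A) m, t' (a • m) = f a • t' m) (n : ℤ)
    (u : V →ₗ[A] V') (u' : W →ₗ[B] W') (h : ∀ x, t' (u x) = u' (t x)) (x : DR ℂ A V) :
    szT n u' (pbT f t ht x) = pbT f t' ht' (szT n u x) := by
  induction x using DR.induction with
  | zero => simp
  | tmul w x => rw [szT_tmul, pbT_tmul, pbT_tmul, szT_tmul, Om.pb_sgz, h]
  | add x y hx hy => rw [map_add, map_add, hx, hy, map_add, map_add]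

end Sz

/-- The `A`-linear map of a cochain. -/
def cA {K L : GTD T} {n : ℤ} (z : GTD.Coch K L n) (X : T.C) :
    (dgm K X).M.V →ₗ[T.R X] (dgm L X).M.V where
  toFun := z.f X
  map_add' := map_add _
  map_smul' a x := z.fn X a x

/-- The cochain of the de Rham complexes defined by a cochain. -/
def DRF.coch (hT : H389.Str T) {K L : GTD T} {n : ℤ} (z : GTD.Coch K L n) :
    OmF.Coch (DRF hT K) (DRF hT L) n where
  f X := (szT n (cA z X)).restrictScalars ℂ
  deg X m x hx := szT_mem n (cA z X) (z.deg X) m x hx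
  smul X w x := szT_smul n (cA z X) w x
  tr {X Y} φ x := pbT_szT (T.f φ) (tA K φ) (tA_smul K φ) (tA L φ) (tA_smul L φ) n (cA z X)
    (cA z Y) (fun x => (z.tr φ x).symm) x

theorem DRF.coch_tmul (hT : H389.Str T) {K L : GTD T} {n : ℤ} (z : GTD.Coch K L n) (X : T.C)
    (w : Om ℂ (T.R X)) (x : (dgm K X).M.V) :
    (DRF.coch hT z).f X (w ⊗ₜ[T.R X] x) = Om.sgz n w ⊗ₜ[T.R X] cA z X x := rfl

theorem DRF.coch_add (hT : H389.Str T) {K L : GTD T} {n : ℤ} (z z' : GTD.Coch K L n) :
    DRF.coch hT (z + z') = DRF.coch hT z + DRF.coch hT z' := by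
  apply OmF.Coch.ext'
  intro X x
  exact szT_add n (cA z X) (cA z' X) x

theorem DRF.coch_smul (hT : H389.Str T) {K L : GTD T} {n : ℤ} (c : ℂ) (z : GTD.Coch K L n) :
    DRF.coch hT (c • z) = c • DRF.coch hT z := by
  apply OmF.Coch.ext'
  intro X x
  change szT n (cA (c • z) X) x = c • szT n (cA z X) x
  induction x using DR.induction with
  | zero => simp
  | tmul w x =>
    rw [szT_tmul, szT_tmul, smul_tmul']
    have h1 : cA (c • z) X x = (algebraMap ℂ (T.R X) c) • cA z X x := ((L.dmod X).const c _).symm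
    rw [h1, ← smul_tmul, algebraMap_smul]
  | add x y hx hy => rw [map_add, hx, hy, map_add, smul_add]

/-- The linear map on cochains. -/
def DRF.cochL (hT : H389.Str T) (K L : GTD T) (n : ℤ) :
    GTD.Coch K L n →ₗ[ℂ] OmF.Coch (DRF hT K) (DRF hT L) n where
  toFun z := DRF.coch hT z
  map_add' := DRF.coch_add hT
  map_smul' c z := DRF.coch_smul hT c z

theorem DRF.coch_one (hT : H389.Str T) (K : GTD T) :
    DRF.coch hT (GTD.Coch.one K) = OmF.Coch.one (DRF hT K) := by
  apply OmF.Coch.ext'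
  intro X x
  change szT 0 (cA (GTD.Coch.one K) X) x = x
  induction x using DR.induction with
  | zero => simp
  | tmul w x => rw [szT_tmul, Om.sgz_zero]; rfl
  | add x y hx hy => rw [map_add, hx, hy]

theorem DRF.coch_cmp (hT : H389.Str T) {K L N : GTD T} {m n p : ℤ} (z : GTD.Coch K L m)
    (w : GTD.Coch L N n) (h : m + n = p) :
    DRF.coch hT (GTD.Coch.cmp z w h) = OmF.Coch.cmp (DRF.coch hT z) (DRF.coch hT w) h := by
  subst h
  apply OmF.Coch.ext'
  intro X x
  exact (szT_szT m n (cA z X) (cA w X) x).symm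

theorem DRF.coch_dl (hT : H389.Str T) {K L : GTD T} {n p : ℤ} (z : GTD.Coch K L n)
    (h : n + 1 = p) : DRF.coch hT (GTD.Coch.dl z h) = OmF.Coch.dl (DRF.coch hT z) h := by
  subst h
  apply OmF.Coch.ext'
  intro X x
  exact (D_szT (bT T X) (dgm K X) (dgm L X) n (cA z X) (cA (GTD.Coch.dl z rfl) X)
    (fun v x => z.vf X v x) (fun _ => rfl) x).symm

end

end Vale.Agent.P286.H697
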