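import Vale.Agent.P286.H697.KunA
import Vale.Agent.P286.H847.Brg

/-!
# Cartesian complexes and flat base change
-/

namespace Vale.Agent.P286.H697

open CategoryTheory Vale.Agent.P286.H710 Vale.Agent.P286.H847 Vale.Agent.P286.H847.GD
  Vale.Agent.P286.St TensorProduct

noncomputable section

section ExtL

variable {A S : Type} [CommRing A] [CommRing S] (f : A →+* S) {Q N : Type} [AddCommGroup Q]
  [Module A Q] [AddCommGroup N]

/-- The additive map from the base change given by a balanced map. -/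
def exL (bl : S →+ Q →+ N) (h : ∀ a s x, bl (f a * s) x = bl s (a • x)) : ExtS f Q →+ N :=
  letI : Module A S := Module.compHom S f
  TensorProduct.liftAddHom bl (fun a s x => h a s x)

theorem exL_el (bl : S →+ Q →+ N) (h : ∀ a s x, bl (f a * s) x = bl s (a • x)) (s : S) (x : Q) :
    exL f bl h (ExtS.el f s x) = bl s x := rfl

/-- The tensor, as an additive map. -/
def elA (Q : Type) [AddCommGroup Q] [Module A Q] : S →+ Q →+ ExtS f Q :=
  letI : Module A S := Module.compHom S f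
  { toFun := fun s =>
      { toFun := fun x => TensorProduct.tmul A s x
        map_zero' := TensorProduct.tmul_zero _ _
        map_add' := fun x y => TensorProduct.tmul_add _ _ _ }
    map_zero' := by
      ext x
      exact TensorProduct.zero_tmul _ _
    map_add' := fun s s' => by
      ext x
      exact TensorProduct.add_tmul _ _ _ }

theorem elA_apply (s : S) (x : Q) : elA f Q s x = ExtS.el f s x := rfl

theorem el_bal (a : A) (s : S) (x : Q) :
    (ExtS.el f (f a * s) x : ExtS f Q) = ExtS.el f s (a • x) := by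
  let : Module A S := Module.compHom S f
  exact TensorProduct.smul_tmul a s x

theorem ex_ind {P : ExtS f Q → Prop} (zero : P 0) (el : ∀ s x, P (ExtS.el f s x))
    (add : ∀ x y, P x → P y → P (x + y)) (z : ExtS f Q) : P z := by
  let : Module A S := Module.compHom S f
  exact TensorProduct.induction_on z zero el add

theorem bcf_el {Q' : Type} [AddCommGroup Q'] [Module A Q'] (u : Q →ₗ[A] Q') (s : S) (x : Q) :
    ExtS.map f u (ExtS.el f s x) = ExtS.el f s (u x) := rfl

end ExtL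

section Ext

variable {A S : Type} [CommRing A] [CommRing S] [Algebra A S] (f : A →+* S)
  (hf : ∀ a, algebraMap A S a = f a) {Q Q' V : Type} [AddCommGroup Q] [Module A Q]
  [AddCommGroup Q'] [Module A Q'] [AddCommGroup V] [Module A V]

/-- The comparison of the two base changes. -/
def cvE : S ⊗[A] Q →+ ExtS f Q :=
  TensorProduct.liftAddHom (elA f Q) (fun a s x => by
      have h : a • s = f a * s := by rw [Algebra.smul_def, hf]
      rw [h]
      exact el_bal f a s x)

theorem cvE_tmul (s : S) (x : Q) : cvE f hf (s ⊗ₜ[A] x) = ExtS.el f s x := rfl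

/-- The tensor, as an additive map. -/
def tmA (p : Q →ₗ[A] V) : S →+ Q →+ S ⊗[A] V :=
  { toFun := fun s =>
      { toFun := fun x => s ⊗ₜ[A] p x
        map_zero' := by rw [map_zero, tmul_zero]
        map_add' := fun x y => by rw [map_add, tmul_add] }
    map_zero' := by
      ext x
      exact TensorProduct.zero_tmul _ _
    map_add' := fun s s' => by
      ext x
      exact TensorProduct.add_tmul _ _ _ }

/-- The linear extension of a linear map to a module `V`. -/
def jE (p : Q →ₗ[A] V) : ExtS f Q →+ S ⊗[A] V :=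
  exL f (tmA p) (fun a s x => by
    change (f a * s) ⊗ₜ[A] p x = s ⊗ₜ[A] p (a • x)
    rw [map_smul, ← hf, ← Algebra.smul_def, smul_tmul])

theorem jE_el (p : Q →ₗ[A] V) (s : S) (x : Q) : jE f hf p (ExtS.el f s x) = s ⊗ₜ[A] p x := rfl

theorem jE_cvE (p : Q →ₗ[A] V) (z : S ⊗[A] Q) :
    jE f hf p (cvE f hf z) = LinearMap.lTensor S p z := by
  induction z using TensorProduct.induction_on with
  | zero => simp
  | tmul s x => rfl
  | add x y hx hy => rw [map_add, map_add, hx, hy, map_add]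

theorem map_cvE (u : Q →ₗ[A] Q') (z : S ⊗[A] Q) :
    ExtS.map f u (cvE f hf z) = cvE f hf (LinearMap.lTensor S u z) := by
  induction z using TensorProduct.induction_on with
  | zero => simp
  | tmul s x => rfl
  | add x y hx hy => rw [map_add, map_add, hx, hy, map_add, map_add]

end Ext

/-- Flatness and the exactness of a sequence given by a direct sum. -/
theorem flat_surj {A S P V : Type} [CommRing A] [CommRing S] [Algebra A S] [Module.Flat A S]
    {P' : Type} [AddCommGroup P] [Module A P] [AddCommGroup P'] [Module A P'] [AddCommGroup V]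
    [Module A V] (δ : P →ₗ[A] P')
    (p : P →ₗ[A] V) (d r r' : V →ₗ[A] V)
    (hd : ∀ x, δ x = 0 → d (p x) = 0) (hr : ∀ x, δ x = 0 → r (p x) = p x)
    (hdr : ∀ y, d (d (r' y)) = 0) (hrd : ∀ y, r (d (r' y)) = d (r' y))
    (h : ∀ y, d y = 0 → r y = y → ∃ x, δ x = 0 ∧ ∃ y', d (r' y') = y - p x)
    (x : S ⊗[A] V) (hx : LinearMap.lTensor S d x = 0) (hx' : LinearMap.lTensor S r x = x) :
    ∃ z : S ⊗[A] P, LinearMap.lTensor S δ z = 0 ∧ ∃ y : S ⊗[A] V,
      LinearMap.lTensor S d (LinearMap.lTensor S r' y) = x - LinearMap.lTensor S p z := by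
  let C : Submodule A P := LinearMap.ker δ
  let ψ : C × V →ₗ[A] V := (p ∘ₗ C.subtype) ∘ₗ LinearMap.fst A C V +
    (d ∘ₗ r') ∘ₗ LinearMap.snd A C V
  let χ : V →ₗ[A] V × V := LinearMap.inl A V V ∘ₗ d +
    LinearMap.inr A V V ∘ₗ (LinearMap.id - r)
  have hex : Function.Exact ψ χ := by
    intro y
    constructor
    · intro hy
      have h1 : d y + 0 = 0 := congrArg Prod.fst hy
      have h2 : (0 : V) + (y - r y) = 0 := congrArg Prod.snd hy
      rw [add_zero] at h1
      rw [zero_add] at h2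
      obtain ⟨x, hx, y', e⟩ := h y h1 (sub_eq_zero.1 h2).symm
      refine ⟨(⟨x, hx⟩, y'), ?_⟩
      change p x + d (r' y') = y
      rw [e]
      abel
    · rintro ⟨⟨⟨c, hc⟩, y⟩, rfl⟩
      have hc' : δ c = 0 := hc
      refine Prod.ext ?_ ?_
      · change d (p c + d (r' y)) + 0 = 0
        rw [map_add, hd c hc', hdr, add_zero, add_zero]
      · change 0 + ((p c + d (r' y)) - r (p c + d (r' y))) = 0
        rw [map_add, hr c hc', hrd, sub_self, add_zero]
  have hexT := Module.Flat.lTensor_exact S hex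
  have h0 : LinearMap.lTensor S χ x = 0 := by
    rw [LinearMap.lTensor_add, LinearMap.add_apply, LinearMap.lTensor_comp_apply,
      LinearMap.lTensor_comp_apply, hx, LinearMap.lTensor_sub, LinearMap.sub_apply,
      LinearMap.lTensor_id, LinearMap.id_apply, hx', sub_self, map_zero, map_zero, add_zero]
  obtain ⟨w, hw⟩ := (hexT x).1 h0
  refine ⟨LinearMap.lTensor S C.subtype (LinearMap.lTensor S (LinearMap.fst A C V) w), ?_,
    LinearMap.lTensor S (LinearMap.snd A C V) w, ?_⟩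
  · have h3 : δ ∘ₗ C.subtype = 0 := LinearMap.ext fun c => c.2
    rw [← LinearMap.lTensor_comp_apply, h3, LinearMap.lTensor_zero, LinearMap.zero_apply]
  · rw [← hw]
    change _ = LinearMap.lTensor S ((p ∘ₗ C.subtype) ∘ₗ LinearMap.fst A C V +
      (d ∘ₗ r') ∘ₗ LinearMap.snd A C V) w - _
    rw [LinearMap.lTensor_add, LinearMap.add_apply, LinearMap.lTensor_comp_apply,
      LinearMap.lTensor_comp_apply, LinearMap.lTensor_comp_apply, LinearMap.lTensor_comp_apply,
      add_sub_cancel_left]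

section Cart

variable {T : TSite} (K : GTD T)

/-- The inclusion of the homogeneous sections. -/
def vD (X : T.C) (m : ℤ) : (GTD.toCx K).S X m →+ (dgm K X).M.V := (K.val m X).toAddMonoidHom

/-- The homogeneous section given by an element. -/
def eD {X : T.C} {m : ℤ} (y : (dgm K X).M.V) (hy : y ∈ (dgm K X).M.gr m) : (GTD.toCx K).S X m :=
  K.el y hy

theorem vD_eD {X : T.C} {m : ℤ} (y : (dgm K X).M.V) (hy : y ∈ (dgm K X).M.gr m) :
    vD K X m (eD K y hy) = y := rfl

theorem vD_mem (X : T.C) (m : ℤ) (x : (GTD.toCx K).S X m) : vD K X m x ∈ (dgm K X).M.gr m :=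
  K.val_mem m X x

theorem vD_inj {X : T.C} {m : ℤ} {x y : (GTD.toCx K).S X m} (h : vD K X m x = vD K X m y) :
    x = y := K.val_inj h

theorem vD_d (X : T.C) (m n : ℤ) (h : m + 1 = n) (x : (GTD.toCx K).S X m) :
    vD K X n ((GTD.toCx K).d X m n x) = (dgm K X).M.d (vD K X m x) := GTD.val_dS K X m n h x

theorem vD_fn (X : T.C) (m : ℤ) (a : T.R X) (x : (GTD.toCx K).S X m) :
    vD K X m ((GTD.toCx K).fn X m a x) = a • vD K X m x := rfl

theorem vD_tr {X Y : T.C} (φ : X ⟶ Y) (m : ℤ) (x : (GTD.toCx K).S X m) :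
    vD K Y m ((GTD.toCx K).tr φ m x) = tA K φ (vD K X m x) := rfl

variable {X : T.C}

/-- The resolution, with values in the sections. -/
def pV {P₀ : MCx (T.R X)} {p : ∀ i, P₀.X i → (GTD.toCx K).S X i}
    (hp : IsFlatRes P₀ ((GTD.toCx K).fn X) ((GTD.toCx K).d X) p) (m : ℤ) :
    P₀.X m →ₗ[T.R X] (dgm K X).M.V where
  toFun x := vD K X m (p m x)
  map_add' x y := by
    have h : p m (x + y) = p m x + p m y := hp.add m x y
    rw [h, map_add]
  map_smul' a x := by
    have h : p m (a • x) = (GTD.toCx K).fn X m a (p m x) := hp.hom m a x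
    rw [h, vD_fn]
    rfl

variable {K} {P₀ : MCx (T.R X)} {p : ∀ i, P₀.X i → (GTD.toCx K).S X i}
    (hp : IsFlatRes P₀ ((GTD.toCx K).fn X) ((GTD.toCx K).d X) p)

theorem pV_apply (m : ℤ) (x : P₀.X m) : pV K hp m x = vD K X m (p m x) := rfl

theorem pV_mem (m : ℤ) (x : P₀.X m) : pV K hp m x ∈ (dgm K X).M.gr m := vD_mem K X m _

theorem pV_d (m n : ℤ) (h : m + 1 = n) (x : P₀.X m) :
    (dgm K X).M.d (pV K hp m x) = pV K hp n (P₀.d m n x) := by
  have h1 : p n (P₀.d m n x) = (GTD.toCx K).d X m n (p m x) := hp.comm m n x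
  rw [pV_apply, pV_apply, h1, vD_d K X m n h]

theorem pV_ex (m : ℤ) (y : (dgm K X).M.V) (hy : y ∈ (dgm K X).M.gr m)
    (hd : (dgm K X).M.d y = 0) : ∃ x, P₀.d m (m + 1) x = 0 ∧
      ∃ y' ∈ (dgm K X).M.gr (m - 1), (dgm K X).M.d y' = y - pV K hp m x := by
  obtain ⟨x, hx, y', e⟩ := (hp.hiso (m - 1) m (m + 1) (by ring) rfl).2 (eD K y hy)
    (vD_inj K (by rw [vD_d K X m (m + 1) rfl, vD_eD, hd, map_zero]))
  refine ⟨x, hx, vD K X (m - 1) y', vD_mem K X _ _, ?_⟩
  rw [← vD_d K X (m - 1) m (by ring), e, map_sub, vD_eD]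
  rfl

variable {Y : T.C} [Algebra (T.R X) (T.R Y)] [IsScalarTower ℂ (T.R X) (T.R Y)]

theorem jE_d (f : T.R X →+* T.R Y) (hf : ∀ a, algebraMap (T.R X) (T.R Y) a = f a) (m n : ℤ)
    (h : m + 1 = n) (z : ExtS f (P₀.X m)) :
    DGM.tT (T.R Y) (dgm K X).dA (jE f hf (pV K hp m) z) =
      jE f hf (pV K hp n) (ExtS.map f (P₀.d m n) z) := by
  induction z using ex_ind with
  | zero => simp
  | el s x =>
    rw [bcf_el, jE_el, jE_el, DGM.tT_tmul, ← pV_d hp m n h]
    rfl
  | add x y hx hy => rw [map_add, map_add, hx, hy, map_add, map_add]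

theorem jE_mem (f : T.R X →+* T.R Y) (hf : ∀ a, algebraMap (T.R X) (T.R Y) a = f a) (m : ℤ)
    (z : ExtS f (P₀.X m)) :
    jE f hf (pV K hp m) z ∈ DGM.grT (A := T.R X) (T.R Y) ((dgm K X).M.gr m) := by
  induction z using ex_ind with
  | zero => rw [map_zero]; exact zero_mem _
  | el s x => exact DGM.tmul_grT _ (pV_mem hp m x)
  | add x y hx hy => rw [map_add]; exact add_mem hx hy

theorem cart_surj [Module.Flat (T.R X) (T.R Y)] (f : T.R X →+* T.R Y)
    (hf : ∀ a, algebraMap (T.R X) (T.R Y) a = f a) (P : DGM.Dec (dgm K X)) (m : ℤ)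
    (x : T.R Y ⊗[T.R X] (dgm K X).M.V)
    (hx : x ∈ DGM.grT (A := T.R X) (T.R Y) ((dgm K X).M.gr m))
    (hd : DGM.tT (T.R Y) (dgm K X).dA x = 0) :
    ∃ z : ExtS f (P₀.X m), ExtS.map f (P₀.d m (m + 1)) z = 0 ∧
      ∃ y ∈ DGM.grT (A := T.R X) (T.R Y) ((dgm K X).M.gr (m - 1)),
        DGM.tT (T.R Y) (dgm K X).dA y = x - jE f hf (pV K hp m) z := by
  obtain ⟨z, hz, y, hy⟩ := flat_surj (S := T.R Y) (P₀.d m (m + 1)) (pV K hp m) (dgm K X).dA
    (P.ρ m) (P.ρ (m - 1))
    (fun x hx => by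
      rw [DGM.dA_apply, pV_d hp m (m + 1) rfl, hx, map_zero])
    (fun x _ => P.same m _ (pV_mem hp m x))
    (fun y => (dgm K X).M.dd _)
    (fun y => P.same m _ ((dgm K X).M.dgr' (n := m) (by ring) (P.mem (m - 1) y)))
    (fun y hy hr => by
      obtain ⟨x, hx, y', hy', e⟩ := pV_ex hp m y (by rw [← hr]; exact P.mem m y) hy
      exact ⟨x, hx, y', by rw [P.same (m - 1) y' hy']; exact e⟩)
    x hd (DGM.tT_same P m x hx)
  refine ⟨cvE f hf z, ?_, DGM.tT (T.R Y) (P.ρ (m - 1)) y, DGM.tT_mem P (m - 1) y, ?_⟩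
  · rw [map_cvE f hf, hz, map_zero]
  · rw [jE_cvE]
    exact hy

include hp in
theorem cart_qis_aux [Module.Flat (T.R X) (T.R Y)] (t : ∀ i, (GTD.toCx K).S X i →
      (GTD.toCx K).S Y i) (tA : (dgm K X).M.V → (dgm K Y).M.V)
    (ht : ∀ m x, vD K Y m (t m x) = tA (vD K X m x)) (f : T.R X →+* T.R Y)
    (hf : ∀ a, algebraMap (T.R X) (T.R Y) a = f a) (P : DGM.Dec (dgm K X))
    (u : Hom (DGM.pullM (T.R Y) (dgm K X)) (dgm K Y).M)
    (hu : ∀ (s : T.R Y) (x : (dgm K X).M.V), u.f (s ⊗ₜ[T.R X] x) = s • tA x)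
    (q : ∀ i, ExtS f (P₀.X i) → (GTD.toCx K).S Y i)
    (hq : IsBaseCh f P₀ ((GTD.toCx K).fn Y) ((GTD.toCx K).d Y) t p q) : Qis u := by
  have hq0 : ∀ m, q m 0 = 0 := fun m => by
    have h : q m (0 + 0) = q m 0 + q m 0 := hq.add m 0 0
    rw [add_zero] at h
    exact left_eq_add.1 h
  have hq1 : ∀ m x y, q m (x + y) = q m x + q m y := fun m x y => hq.add m x y
  have hq2 : ∀ m s x, q m (ExtS.el f s x) = (GTD.toCx K).fn Y m s (t m (p m x)) :=
    fun m s x => hq.el m s x
  have qv : ∀ (m : ℤ) (z : ExtS f (P₀.X m)),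
      vD K Y m (q m z) = u.f (jE f hf (pV K hp m) z) := by
    intro m z
    induction z using ex_ind with
    | zero => rw [map_zero, map_zero, hq0, map_zero]
    | el s x => rw [jE_el, hu, hq2, vD_fn, ht]; rfl
    | add x y hx hy => rw [map_add, map_add, ← hx, ← hy, hq1, map_add]
  intro m
  have hi := hq.hiso (m - 1) m (m + 1) (by ring) rfl
  have hi1 : ∀ z : ExtS f (P₀.X m), ExtS.map f (P₀.d m (m + 1)) z = 0 →
      (∃ y, (GTD.toCx K).d Y (m - 1) m y = q m z) →
      ∃ z' : ExtS f (P₀.X (m - 1)), ExtS.map f (P₀.d (m - 1) m) z' = z := hi.1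
  have hi2 : ∀ y : (GTD.toCx K).S Y m, (GTD.toCx K).d Y m (m + 1) y = 0 →
      ∃ z : ExtS f (P₀.X m), ExtS.map f (P₀.d m (m + 1)) z = 0 ∧
        ∃ y', (GTD.toCx K).d Y (m - 1) m y' = y - q m z := hi.2
  constructor
  · rintro x hx hd ⟨y, hy, e⟩
    obtain ⟨z, hz, y', hy', e'⟩ := cart_surj hp f hf P m x hx hd
    have h1 : (dgm K Y).M.d (y - u.f y') = vD K Y m (q m z) := by
      rw [map_sub, e, ← u.comm, qv, ← map_sub]
      congr 1
      change x - DGM.tT (T.R Y) (dgm K X).dA y' = _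
      rw [e', sub_sub_cancel]
    obtain ⟨z', h2⟩ := hi1 z hz
      ⟨eD K (y - u.f y') (sub_mem hy (u.deg (m - 1) y' hy')), vD_inj K (by
        rw [vD_d K Y (m - 1) m (by ring), vD_eD, h1])⟩
    refine ⟨jE f hf (pV K hp (m - 1)) z' + y', add_mem (jE_mem hp f hf (m - 1) z') hy', ?_⟩
    change DGM.tT (T.R Y) (dgm K X).dA (jE f hf (pV K hp (m - 1)) z' + y') = x
    rw [map_add, jE_d hp f hf (m - 1) m (by ring), e', h2, add_sub_cancel]
  · intro y hy hd
    obtain ⟨z, h2, y', e⟩ := hi2 (eD K y hy)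
      (vD_inj K (by rw [vD_d K Y m (m + 1) rfl, vD_eD, hd, map_zero]))
    refine ⟨jE f hf (pV K hp m) z, jE_mem hp f hf m z, ?_, vD K Y (m - 1) y',
      vD_mem K Y _ _, ?_⟩
    · change DGM.tT (T.R Y) (dgm K X).dA (jE f hf (pV K hp m) z) = 0
      rw [jE_d hp f hf m (m + 1) rfl, h2, map_zero]
    · rw [← vD_d K Y (m - 1) m (by ring), e, map_sub, vD_eD, qv]

/-- **Flat base change for cartesian complexes.** -/
theorem cart_qis [Module.Flat (T.R X) (T.R Y)] (hK : Cx.Cart (GTD.toCx K)) (φ : X ⟶ Y)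
    (hφ : ∀ a, algebraMap (T.R X) (T.R Y) a = T.f φ a) (P : DGM.Dec (dgm K X))
    (u : Hom (DGM.pullM (T.R Y) (dgm K X)) (dgm K Y).M)
    (hu : ∀ (s : T.R Y) (x : (dgm K X).M.V), u.f (s ⊗ₜ[T.R X] x) = s • tA K φ x) : Qis u := by
  obtain ⟨P₀, p, hp, hb⟩ := hK X
  obtain ⟨q, hq⟩ := hb Y φ
  exact cart_qis_aux hp _ (tA K φ) (fun m x => vD_tr K φ m x) (T.f φ).r hφ P u hu q hq

end Cart

end

end Vale.Agent.P286.H697
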