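import Vale.Agent.P286.H697.DRq1
import Vale.Agent.P286.H847.GD2

/-!
# The de Rham complex of a complex of `D`-modules, as a graded differential space
-/

namespace Vale.Agent.P286.H697

open Vale.Agent.P286.H710 Vale.Agent.P286.H847 TensorProduct

noncomputable section

/-- A graded differential space which is a complex of left `D`-modules over `A`. -/
structure DGM (A : Type) [CommRing A] [Algebra ℂ A] : Type 1 where
  M : GD
  [mod : Module A M.V]
  [tow : IsScalarTower ℂ A M.V]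
  C : FC ℂ A M.V
  d_smul : ∀ (a : A) (x : M.V), M.d (a • x) = a • M.d x
  d_act : ∀ (v : Derivation ℂ A A) (x : M.V), M.d (C.act v x) = C.act v (M.d x)
  gr_smul : ∀ (m : ℤ) (a : A) (x : M.V), x ∈ M.gr m → a • x ∈ M.gr m
  gr_act : ∀ (m : ℤ) (v : Derivation ℂ A A) (x : M.V), x ∈ M.gr m → C.act v x ∈ M.gr m

attribute [instance] DGM.mod DGM.tow

variable {A : Type} [CommRing A] [Algebra ℂ A]

section Gen

variable {V : Type} [AddCommGroup V] [Module A V]

theorem csmul_eq (c : ℂ) (x : DR ℂ A V) : c • x = (algebraMap ℂ (Om ℂ A) c) • x := by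
  rw [algebraMap_smul]

theorem dR_csmul (b : DB ℂ A) (C : FC ℂ A V) (c : ℂ) (x : DR ℂ A V) :
    dR b C (c • x) = c • dR b C x := by
  have h : Om.d (algebraMap ℂ (Om ℂ A) c) = 0 := by
    rw [IsScalarTower.algebraMap_apply ℂ A (Om ℂ A), Om.d_algebraMap, Om.dd,
      Derivation.map_algebraMap, map_zero]
  have h' : Om.sg (algebraMap ℂ (Om ℂ A) c) = algebraMap ℂ (Om ℂ A) c := by
    rw [IsScalarTower.algebraMap_apply ℂ A (Om ℂ A)]
    exact AlgHom.commutes _ _
  rw [csmul_eq, dR_smul, h, h', zero_smul, zero_add, csmul_eq]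

/-- The operator `sg ⊗ u`. -/
def sgT {W : Type} [AddCommGroup W] [Module A W] (u : V →ₗ[A] W) : DR ℂ A V →ₗ[A] DR ℂ A W :=
  TensorProduct.map (Om.sg (k := ℂ) (A := A)).toLinearMap u

theorem sgT_tmul {W : Type} [AddCommGroup W] [Module A W] (u : V →ₗ[A] W) (w : Om ℂ A) (x : V) :
    sgT u (w ⊗ₜ[A] x) = Om.sg w ⊗ₜ[A] u x := rfl

theorem sgT_smul {W : Type} [AddCommGroup W] [Module A W] (u : V →ₗ[A] W) (w : Om ℂ A)
    (x : DR ℂ A V) : sgT u (w • x) = Om.sg w • sgT u x := by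
  induction x using DR.induction with
  | zero => rw [smul_zero, map_zero, smul_zero]
  | tmul w' x => rw [smul_tmul', smul_eq_mul, sgT_tmul, sgT_tmul, map_mul, smul_tmul', smul_eq_mul]
  | add x y hx hy => rw [smul_add, map_add, map_add, hx, hy, smul_add]

theorem sgT_nab {W : Type} [AddCommGroup W] [Module A W] (b : DB ℂ A) (C : FC ℂ A V)
    (C' : FC ℂ A W) (u : V →ₗ[A] W) (hu : ∀ v x, u (C.act v x) = C'.act v (u x)) (x : V) :
    sgT u (nab b C x) = - nab b C' (u x) := by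
  rw [nab_apply, nab_apply, map_sum, ← Finset.sum_neg_distrib]
  refine Finset.sum_congr rfl fun i _ => ?_
  rw [sgT_tmul, Om.sg_dd, neg_tmul, hu]

theorem sgT_dR {W : Type} [AddCommGroup W] [Module A W] (b : DB ℂ A) (C : FC ℂ A V)
    (C' : FC ℂ A W) (u : V →ₗ[A] W) (hu : ∀ v x, u (C.act v x) = C'.act v (u x))
    (x : DR ℂ A V) : sgT u (dR b C x) = - dR b C' (sgT u x) := by
  induction x using DR.induction with
  | zero => simp
  | tmul w x =>
    rw [dR_tmul, map_add, sgT_tmul, sgT_smul, sgT_nab b C C' u hu, sgT_tmul, dR_tmul, Om.d_sg,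
      neg_tmul, smul_neg, neg_add, neg_neg]
  | add x y hx hy => rw [map_add, map_add, hx, hy, map_add, map_add, neg_add]

theorem sgT_sgT {W Z : Type} [AddCommGroup W] [Module A W] [AddCommGroup Z] [Module A Z]
    (u : V →ₗ[A] W) (v : W →ₗ[A] Z) (x : DR ℂ A V) :
    sgT v (sgT u x) = LinearMap.lTensor (Om ℂ A) (v ∘ₗ u) x := by
  induction x using DR.induction with
  | zero => simp
  | tmul w x =>
    rw [sgT_tmul, sgT_tmul, LinearMap.lTensor_tmul]
    congr 1
    exact CliffordAlgebra.involute_involute w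
  | add x y hx hy => rw [map_add, map_add, hx, hy, map_add]

end Gen

namespace DGM

/-- The differential as an `A`-linear map. -/
def dA (K : DGM A) : K.M.V →ₗ[A] K.M.V where
  toFun := K.M.d
  map_add' := map_add _
  map_smul' := K.d_smul

theorem dA_apply (K : DGM A) (x : K.M.V) : K.dA x = K.M.d x := rfl

/-- The total differential. -/
def D (b : DB ℂ A) (K : DGM A) : DR ℂ A K.M.V →ₗ[ℂ] DR ℂ A K.M.V where
  toFun x := dR b K.C x + sgT K.dA x
  map_add' x y := by
    rw [map_add, map_add]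
    abel
  map_smul' c x := by
    rw [dR_csmul, RingHom.id_apply, smul_add]
    congr 1
    rw [csmul_eq, sgT_smul, IsScalarTower.algebraMap_apply ℂ A (Om ℂ A)]
    have h' : Om.sg (algebraMap A (Om ℂ A) (algebraMap ℂ A c)) =
        algebraMap A (Om ℂ A) (algebraMap ℂ A c) := AlgHom.commutes _ _
    rw [h', ← IsScalarTower.algebraMap_apply ℂ A (Om ℂ A), csmul_eq]

theorem D_apply (b : DB ℂ A) (K : DGM A) (x : DR ℂ A K.M.V) :
    K.D b x = dR b K.C x + sgT K.dA x := rfl

theorem isUnit_two : IsUnit (2 : A) := by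
  have h : (2 : A) = algebraMap ℂ A 2 := by rw [map_ofNat]
  rw [h]
  exact (IsUnit.mk0 (2 : ℂ) two_ne_zero).map _

theorem D_D (b : DB ℂ A) (K : DGM A) (x : DR ℂ A K.M.V) : K.D b (K.D b x) = 0 := by
  have h : K.dA ∘ₗ K.dA = 0 := LinearMap.ext fun x => K.M.dd x
  rw [D_apply, D_apply, map_add, map_add, dR_dR isUnit_two, sgT_dR b K.C K.C K.dA K.d_act,
    sgT_sgT, h, LinearMap.lTensor_zero]
  simp

/-- The forms of degree `p` with coefficients in degree `m - p`, for all `p`. -/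
def gr (K : DGM A) (m : ℤ) : Submodule ℂ (DR ℂ A K.M.V) :=
  Submodule.span ℂ {y | ∃ (p : ℕ) (i : ℤ), (p : ℤ) + i = m ∧ ∃ w ∈ Om.gr ℂ A p, ∃ x ∈ K.M.gr i,
    w ⊗ₜ[A] x = y}

theorem tmul_mem (K : DGM A) {p : ℕ} {i m : ℤ} (h : (p : ℤ) + i = m) {w : Om ℂ A}
    (hw : w ∈ Om.gr ℂ A p) {x : K.M.V} (hx : x ∈ K.M.gr i) : w ⊗ₜ[A] x ∈ K.gr m :=
  Submodule.subset_span ⟨p, i, h, w, hw, x, hx, rfl⟩

@[elab_as_elim]
theorem gr_ind (K : DGM A) {m : ℤ} {Q : ∀ x : DR ℂ A K.M.V, x ∈ K.gr m → Prop}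
    (zero : Q 0 (Submodule.zero_mem _))
    (tmul : ∀ (p : ℕ) (i : ℤ) (h : (p : ℤ) + i = m) (w : Om ℂ A) (hw : w ∈ Om.gr ℂ A p)
      (x : K.M.V) (hx : x ∈ K.M.gr i), Q (w ⊗ₜ[A] x) (K.tmul_mem h hw hx))
    (add : ∀ x y hx hy, Q x hx → Q y hy → Q (x + y) (add_mem hx hy)) {x : DR ℂ A K.M.V}
    (hx : x ∈ K.gr m) : Q x hx := by
  have h : ∀ c : ℂ, Q (c • x) (Submodule.smul_mem _ c hx) := by
    induction hx using Submodule.span_induction with
    | mem x hx =>
      obtain ⟨p, i, hpi, w, hw, x, hx, rfl⟩ := hx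
      intro c
      refine tmul p i hpi (c • w) ?_ x hx
      rw [← algebraMap_smul A c w]
      exact Submodule.smul_mem _ _ hw
    | zero =>
      intro c
      simpa using zero
    | add x y _ _ hx hy =>
      intro c
      simpa using add _ _ _ _ (hx c) (hy c)
    | smul c x _ hx =>
      intro c'
      simpa [smul_smul] using hx (c' * c)
  simpa using h 1

theorem D_mem (b : DB ℂ A) (K : DGM A) (m : ℤ) (x : DR ℂ A K.M.V) (hx : x ∈ K.gr m) :
    K.D b x ∈ K.gr (m + 1) := by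
  induction hx using K.gr_ind with
  | zero => rw [map_zero]; exact zero_mem _
  | tmul p i hpi w hw x hx =>
    rw [D_apply, dR_tmul, sgT_tmul]
    refine add_mem (add_mem ?_ ?_) ?_
    · exact K.tmul_mem (p := p + 1) (i := i) (by push_cast; omega) (Om.d_mem hw) hx
    · rw [nab_apply, Finset.smul_sum]
      refine Submodule.sum_mem _ fun j _ => ?_
      rw [smul_tmul', smul_eq_mul]
      exact K.tmul_mem (p := p + 1) (i := i) (by push_cast; omega)
        (Om.gr_mul (Om.sg_mem hw) (Om.dd_mem _)) (K.gr_act i _ x hx)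
    · exact K.tmul_mem (p := p) (i := i + 1) (by omega) (Om.sg_mem hw) (K.M.dgr i x hx)
  | add x y _ _ hx hy => rw [map_add]; exact add_mem hx hy

/-- The de Rham complex with coefficients in a complex of `D`-modules. -/
abbrev DRg (b : DB ℂ A) (K : DGM A) : GD where
  V := DR ℂ A K.M.V
  d := K.D b
  dd := K.D_D b
  gr := K.gr
  dgr m x hx := K.D_mem b m x hx

/-- A morphism of complexes of `D`-modules. -/
structure Mor (K L : DGM A) where
  u : GD.Hom K.M L.M
  smul : ∀ (a : A) x, u.f (a • x) = a • u.f x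
  act : ∀ v x, u.f (K.C.act v x) = L.C.act v (u.f x)

/-- The underlying `A`-linear map. -/
def Mor.lin {K L : DGM A} (u : Mor K L) : K.M.V →ₗ[A] L.M.V where
  toFun := u.u.f
  map_add' := map_add _
  map_smul' := u.smul

theorem Mor.lin_apply {K L : DGM A} (u : Mor K L) (x : K.M.V) : u.lin x = u.u.f x := rfl

theorem lT_smul {V W : Type} [AddCommGroup V] [Module A V] [AddCommGroup W] [Module A W]
    (u : V →ₗ[A] W) (w : Om ℂ A) (x : DR ℂ A V) :
    LinearMap.lTensor (Om ℂ A) u (w • x) = w • LinearMap.lTensor (Om ℂ A) u x := by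
  induction x using DR.induction with
  | zero => rw [smul_zero, map_zero, smul_zero]
  | tmul w' x => rw [smul_tmul', smul_eq_mul, LinearMap.lTensor_tmul, LinearMap.lTensor_tmul,
      smul_tmul', smul_eq_mul]
  | add x y hx hy => rw [smul_add, map_add, map_add, hx, hy, smul_add]

theorem lT_dR {V W : Type} [AddCommGroup V] [Module A V] [AddCommGroup W] [Module A W]
    (b : DB ℂ A) (C : FC ℂ A V)
    (C' : FC ℂ A W) (u : V →ₗ[A] W) (hu : ∀ v x, u (C.act v x) = C'.act v (u x))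
    (x : DR ℂ A V) : LinearMap.lTensor (Om ℂ A) u (dR b C x) =
      dR b C' (LinearMap.lTensor (Om ℂ A) u x) := by
  induction x using DR.induction with
  | zero => simp
  | tmul w x =>
    rw [dR_tmul, map_add, LinearMap.lTensor_tmul, lT_smul, LinearMap.lTensor_tmul, dR_tmul]
    congr 2
    rw [nab_apply, nab_apply, map_sum]
    exact Finset.sum_congr rfl fun i _ => by rw [LinearMap.lTensor_tmul, hu]
  | add x y hx hy => rw [map_add, map_add, hx, hy, map_add, map_add]

theorem lT_sgT {V W V' W' : Type} [AddCommGroup V] [Module A V] [AddCommGroup W] [Module A W]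
    [AddCommGroup V'] [Module A V'] [AddCommGroup W'] [Module A W']
    (u : V →ₗ[A] W) (e : W →ₗ[A] W') (e' : V →ₗ[A] V') (u' : V' →ₗ[A] W')
    (h : ∀ x, e (u x) = u' (e' x)) (x : DR ℂ A V) :
    LinearMap.lTensor (Om ℂ A) e (sgT u x) = sgT u' (LinearMap.lTensor (Om ℂ A) e' x) := by
  induction x using DR.induction with
  | zero => simp
  | tmul w x =>
    rw [sgT_tmul, LinearMap.lTensor_tmul, LinearMap.lTensor_tmul, sgT_tmul, h]
  | add x y hx hy => rw [map_add, map_add, hx, hy, map_add, map_add]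

theorem lT_D (b : DB ℂ A) {K L : DGM A} (u : Mor K L) (x : DR ℂ A K.M.V) :
    LinearMap.lTensor (Om ℂ A) u.lin (K.D b x) = L.D b (LinearMap.lTensor (Om ℂ A) u.lin x) := by
  rw [D_apply, D_apply, map_add, lT_dR b K.C L.C u.lin u.act,
    lT_sgT K.dA u.lin u.lin L.dA (fun x => u.u.comm x)]

theorem lT_mem {K L : DGM A} (u : Mor K L) {m : ℤ} {x : DR ℂ A K.M.V} (hx : x ∈ K.gr m) :
    LinearMap.lTensor (Om ℂ A) u.lin x ∈ L.gr m := by
  induction hx using K.gr_ind with
  | zero => rw [map_zero]; exact zero_mem _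
  | tmul p i hpi w hw x hx =>
    rw [LinearMap.lTensor_tmul]
    exact L.tmul_mem hpi hw (u.u.deg i x hx)
  | add x y _ _ hx hy => rw [map_add]; exact add_mem hx hy

/-- Functoriality of the de Rham complex. -/
def DRg.map (b : DB ℂ A) {K L : DGM A} (u : Mor K L) : GD.Hom (DRg b K) (DRg b L) where
  f := (LinearMap.lTensor (Om ℂ A) u.lin).restrictScalars ℂ
  comm x := lT_D b u x
  deg _ _ hx := lT_mem u hx

theorem DRg.map_tmul (b : DB ℂ A) {K L : DGM A} (u : Mor K L) (w : Om ℂ A) (x : K.M.V) :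
    (DRg.map b u).f (w ⊗ₜ[A] x) = w ⊗ₜ[A] u.u.f x := rfl

end DGM

end

end Vale.Agent.P286.H697
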