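import Vale.Agent.P286.H697.DRq2

/-!
# The de Rham complex preserves quasi-isomorphisms of complexes of `D`-modules
-/

namespace Vale.Agent.P286.H697

open Vale.Agent.P286.H710 Vale.Agent.P286.H847 TensorProduct

noncomputable section

namespace DGM

variable {A : Type} [CommRing A] [Algebra ℂ A]

/-- Homogeneous projections: `K` is the direct sum of its homogeneous parts. -/
structure Dec (K : DGM A) where
  ρ : ℤ → K.M.V →ₗ[A] K.M.V
  mem : ∀ i x, ρ i x ∈ K.M.gr i
  same : ∀ i x, x ∈ K.M.gr i → ρ i x = x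
  ne : ∀ i j x, x ∈ K.M.gr j → j ≠ i → ρ i x = 0
  sum : ∀ x, ∃ s : Finset ℤ, x = ∑ i ∈ s, ρ i x

variable {K : DGM A} (P : Dec K)

theorem Dec.d_comm (i : ℤ) (x : K.M.V) : K.M.d (P.ρ i x) = P.ρ (i + 1) (K.M.d x) := by
  obtain ⟨s, hs⟩ := P.sum x
  have h1 : P.ρ (i + 1) (K.M.d x) = ∑ j ∈ s, P.ρ (i + 1) (K.M.d (P.ρ j x)) := by
    conv_lhs => rw [hs]
    rw [map_sum, map_sum]
  have h2 : ∀ j ∈ s, j ≠ i → P.ρ (i + 1) (K.M.d (P.ρ j x)) = 0 := fun j _ hj =>
    P.ne (i + 1) (j + 1) _ (K.M.dgr j _ (P.mem j x)) (by omega)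
  rw [h1]
  by_cases hi : i ∈ s
  · rw [Finset.sum_eq_single_of_mem i hi h2, P.same (i + 1) _ (K.M.dgr i _ (P.mem i x))]
  · have h3 : P.ρ i x = 0 := by
      conv_lhs => rw [hs]
      rw [map_sum]
      refine Finset.sum_eq_zero fun j hj => P.ne i j _ (P.mem j x) ?_
      rintro rfl
      exact hi hj
    rw [h3, map_zero]
    refine (Finset.sum_eq_zero fun j hj => h2 j hj ?_).symm
    rintro rfl
    exact hi hj

include P in
/-- Exactness without degrees. -/
theorem Dec.exact (hK : K.M.Exact) (x : K.M.V) (hx : K.M.d x = 0) : ∃ y, K.M.d y = x := by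
  have h : ∀ i, ∃ y, K.M.d y = P.ρ i x := fun i => by
    obtain ⟨y, -, hy⟩ := hK i _ (P.mem i x) (by rw [P.d_comm, hx, map_zero])
    exact ⟨y, hy⟩
  choose y hy using h
  obtain ⟨s, hs⟩ := P.sum x
  refine ⟨∑ i ∈ s, y i, ?_⟩
  rw [map_sum]
  conv_rhs => rw [hs]
  exact Finset.sum_congr rfl fun i _ => hy i

include P in
theorem Dec.function_exact (hK : K.M.Exact) : Function.Exact K.dA K.dA := by
  intro x
  constructor
  · intro hx
    obtain ⟨y, hy⟩ := P.exact hK x hx
    exact ⟨y, hy⟩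
  · rintro ⟨y, rfl⟩
    exact K.M.dd y

/-- The part of form degree `p`. -/
def prT (V : Type) [AddCommGroup V] [Module A V] (p : ℕ) : DR ℂ A V →ₗ[A] DR ℂ A V :=
  LinearMap.rTensor V (Om.pr ℂ A p)

section Pr

variable {V W : Type} [AddCommGroup V] [Module A V] [AddCommGroup W] [Module A W]

theorem prT_tmul (p : ℕ) (w : Om ℂ A) (x : V) : prT V p (w ⊗ₜ[A] x) = Om.pr ℂ A p w ⊗ₜ[A] x := rfl

theorem sum_prT (b : DB ℂ A) (x : DR ℂ A V) : ∑ p ∈ Finset.range (b.n + 1), prT V p x = x := by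
  induction x using DR.induction with
  | zero => simp
  | tmul w x =>
    simp only [prT_tmul]
    rw [← sum_tmul, Om.sum_pr]
  | add x y hx hy =>
    simp only [map_add]
    rw [Finset.sum_add_distrib, hx, hy]

theorem Om.induction_gr (b : DB ℂ A) {Q : Om ℂ A → Prop} (zero : Q 0)
    (h : ∀ p, ∀ w ∈ Om.gr ℂ A p, Q w) (add : ∀ x y, Q x → Q y → Q (x + y)) (w : Om ℂ A) : Q w := by
  rw [← Om.sum_pr b w]
  refine Finset.sum_induction _ Q add zero fun p _ => h p _ (Om.pr_mem p w)

theorem prT_sgT (b : DB ℂ A) (p : ℕ) (u : V →ₗ[A] W) (x : DR ℂ A V) :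
    prT W p (sgT u x) = sgT u (prT V p x) := by
  induction x using DR.induction with
  | zero => simp
  | tmul w x =>
    rw [sgT_tmul, prT_tmul, prT_tmul, sgT_tmul]
    congr 1
    induction w using Om.induction_gr b with
    | zero => simp
    | h q w hw =>
      by_cases hq : q = p
      · subst hq
        rw [Om.pr_of_mem hw, Om.pr_of_mem (Om.sg_mem hw)]
      · rw [Om.pr_of_ne hq hw, Om.pr_of_ne hq (Om.sg_mem hw), map_zero]
    | add x y hx hy => rw [map_add, map_add, hx, hy, map_add, map_add]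
  | add x y hx hy => rw [map_add, map_add, hx, hy, map_add, map_add]

/-- `sg ⊗ u` on forms of degree `p`. -/
theorem sgT_prT (p : ℕ) (u : V →ₗ[A] W) (x : DR ℂ A V) :
    sgT u (prT V p x) = (-1 : A) ^ p • LinearMap.lTensor (Om ℂ A) u (prT V p x) := by
  induction x using DR.induction with
  | zero => simp
  | tmul w x =>
    rw [prT_tmul, sgT_tmul, LinearMap.lTensor_tmul, Om.sg_gr (Om.pr_mem p w), smul_tmul']
    congr 1
    rw [Algebra.smul_def, map_pow, map_neg, map_one]
  | add x y hx hy => rw [map_add, map_add, hx, hy, map_add, smul_add]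

theorem prT_prT (p q : ℕ) (h : p ≠ q) (x : DR ℂ A V) : prT V q (prT V p x) = 0 := by
  induction x using DR.induction with
  | zero => simp
  | tmul w x => rw [prT_tmul, prT_tmul, Om.pr_of_ne h (Om.pr_mem p w), zero_tmul]
  | add x y hx hy => rw [map_add, map_add, hx, hy, add_zero]

theorem prT_same (p : ℕ) (x : DR ℂ A V) : prT V p (prT V p x) = prT V p x := by
  induction x using DR.induction with
  | zero => simp
  | tmul w x => rw [prT_tmul, prT_tmul, Om.pr_of_mem (Om.pr_mem p w)]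
  | add x y hx hy => rw [map_add, map_add, hx, hy]

theorem prT_of_mem {p : ℕ} {x : DR ℂ A V} (hx : x ∈ DR.gr ℂ A V p) : prT V p x = x := by
  induction hx using DR.gr_ind with
  | zero => rw [map_zero]
  | tmul w hw m => rw [prT_tmul, Om.pr_of_mem hw]
  | add x y _ _ hx hy => rw [map_add, hx, hy]

theorem prT_of_ne {p q : ℕ} (h : q ≠ p) {x : DR ℂ A V} (hx : x ∈ DR.gr ℂ A V q) :
    prT V p x = 0 := by
  induction hx using DR.gr_ind with
  | zero => rw [map_zero]
  | tmul w hw m => rw [prT_tmul, Om.pr_of_ne h hw, zero_tmul]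
  | add x y _ _ hx hy => rw [map_add, hx, hy, add_zero]

theorem prT_mem (p : ℕ) (x : DR ℂ A V) : prT V p x ∈ DR.gr ℂ A V p := by
  induction x using DR.induction with
  | zero => rw [map_zero]; exact Submodule.zero_mem _
  | tmul w x => exact DR.tmul_mem (Om.pr_mem p w) x
  | add x y hx hy => rw [map_add]; exact add_mem hx hy

theorem prT_dR (b : DB ℂ A) (C : FC ℂ A V) (p : ℕ) (x : DR ℂ A V) :
    prT V (p + 1) (dR b C x) = dR b C (prT V p x) := by
  have h : x = ∑ q ∈ Finset.range (b.n + 1), prT V q x := (sum_prT b x).symm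
  have key : ∀ q, prT V (p + 1) (dR b C (prT V q x)) = dR b C (prT V p (prT V q x)) := by
    intro q
    by_cases hq : q = p
    · subst hq
      rw [prT_same, prT_of_mem (dR_mem b C (prT_mem q x))]
    · rw [prT_prT q p hq, map_zero,
        prT_of_ne (by omega : q + 1 ≠ p + 1) (dR_mem b C (prT_mem q x))]
  conv_lhs => rw [h]
  conv_rhs => rw [h]
  rw [map_sum, map_sum, map_sum, map_sum]
  exact Finset.sum_congr rfl fun q _ => key q

theorem prT_zero_dR (b : DB ℂ A) (C : FC ℂ A V) (x : DR ℂ A V) : prT V 0 (dR b C x) = 0 := by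
  have h : x = ∑ q ∈ Finset.range (b.n + 1), prT V q x := (sum_prT b x).symm
  rw [h, map_sum, map_sum]
  exact Finset.sum_eq_zero fun q _ =>
    prT_of_ne (by omega : q + 1 ≠ 0) (dR_mem b C (prT_mem q x))

end Pr

/-- The bihomogeneous projections. -/
def Dec.PR (p : ℕ) (i : ℤ) : DR ℂ A K.M.V →ₗ[A] DR ℂ A K.M.V :=
  LinearMap.lTensor (Om ℂ A) (P.ρ i) ∘ₗ prT K.M.V p

theorem Dec.PR_mem (p : ℕ) (i m : ℤ) (h : (p : ℤ) + i = m) (x : DR ℂ A K.M.V) :
    P.PR p i x ∈ K.gr m := by
  induction x using DR.induction with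
  | zero => rw [map_zero]; exact Submodule.zero_mem _
  | tmul w x => exact K.tmul_mem h (Om.pr_mem p w) (P.mem i x)
  | add x y hx hy => rw [map_add]; exact add_mem hx hy

theorem Dec.PR_of_mem {m : ℤ} {x : DR ℂ A K.M.V} (hx : x ∈ K.gr m) (p : ℕ) (i : ℤ)
    (h : (p : ℤ) + i = m) : P.PR p i x = prT K.M.V p x := by
  induction hx using K.gr_ind with
  | zero => rw [map_zero, map_zero]
  | tmul q j hqj w hw x hx =>
    change LinearMap.lTensor (Om ℂ A) (P.ρ i) (prT K.M.V p (w ⊗ₜ[A] x)) = _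
    rw [prT_tmul, LinearMap.lTensor_tmul]
    by_cases hq : q = p
    · subst hq
      rw [P.same i x (by rwa [show i = j by omega])]
    · rw [Om.pr_of_ne hq hw, zero_tmul, zero_tmul]
  | add x y _ _ hx hy => rw [map_add, map_add, hx, hy]

omit [Algebra ℂ A] in
theorem negOnePow_sq (p : ℕ) : (-1 : A) ^ p * (-1 : A) ^ p = 1 := by
  rw [← mul_pow]; simp

include P in
/-- **Exactness** of the de Rham complex of an exact complex. -/
theorem exact_DRg (b : DB ℂ A) (hK : K.M.Exact) : (DRg b K).Exact := by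
  have hfl : Module.Flat A (Om ℂ A) := flat_Om b
  have hex := Module.Flat.lTensor_exact (Om ℂ A) (P.function_exact hK)
  refine GD.Exact.of_filtration (DRg b K)
    (fun p (x : DR ℂ A K.M.V) => ∀ q < p, prT K.M.V q x = 0)
    (fun x q hq => absurd hq (Nat.not_lt_zero q)) (fun m => ⟨b.n + 1, fun x _ hx => ?_⟩) ?_
  · have h1 := sum_prT b x
    rw [← h1]
    exact Finset.sum_eq_zero fun q hq => hx q (Finset.mem_range.1 hq)
  intro p m (x : DR ℂ A K.M.V) (hx : x ∈ K.gr m) hF (hD : K.D b x = 0)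
  have h1 : LinearMap.lTensor (Om ℂ A) K.dA (prT K.M.V p x) = 0 := by
    have h2 : prT K.M.V p (dR b K.C x) = 0 := by
      cases p with
      | zero => exact prT_zero_dR b K.C x
      | succ p => rw [prT_dR, hF p (Nat.lt_succ_self p), map_zero]
    have h3 : prT K.M.V p (K.D b x) = 0 := by rw [hD, map_zero]
    rw [D_apply, map_add, h2, zero_add, prT_sgT b, sgT_prT] at h3
    have h4 := congrArg ((-1 : A) ^ p • ·) h3
    simpa only [smul_smul, negOnePow_sq, one_smul, smul_zero] using h4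
  obtain ⟨z, hz⟩ := (hex _).1 h1
  let y : DR ℂ A K.M.V := (-1 : A) ^ p • P.PR p (m - p - 1) z
  have hy : y ∈ K.gr (m - 1) := by
    have h5 : y = P.PR p (m - p - 1) ((-1 : A) ^ p • z) := by rw [map_smul]
    rw [h5]
    exact P.PR_mem p _ _ (by omega) _
  have hy2 : prT K.M.V p y = y := by
    have h5 : ∀ z, prT K.M.V p (P.PR p (m - p - 1) z) = P.PR p (m - p - 1) z := by
      intro z
      induction z using DR.induction with
      | zero => simp
      | tmul w v =>
        change prT K.M.V p (Om.pr ℂ A p w ⊗ₜ[A] P.ρ (m - p - 1) v) =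
          Om.pr ℂ A p w ⊗ₜ[A] P.ρ (m - p - 1) v
        rw [prT_tmul, Om.pr_of_mem (Om.pr_mem p w)]
      | add x y hx hy => rw [map_add, map_add, hx, hy]
    rw [map_smul, h5]
  have hy3 : sgT K.dA y = prT K.M.V p x := by
    rw [← hy2, sgT_prT, hy2, map_smul, smul_smul, negOnePow_sq, one_smul]
    have h6 : ∀ z, LinearMap.lTensor (Om ℂ A) K.dA (P.PR p (m - p - 1) z) =
        P.PR p (m - p) (LinearMap.lTensor (Om ℂ A) K.dA z) := by
      intro z
      induction z using DR.induction with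
      | zero => simp
      | tmul w v =>
        change Om.pr ℂ A p w ⊗ₜ[A] K.M.d (P.ρ (m - p - 1) v) =
          Om.pr ℂ A p w ⊗ₜ[A] P.ρ (m - p) (K.M.d v)
        rw [P.d_comm, show m - (p : ℤ) - 1 + 1 = m - p by ring]
      | add x y hx hy => rw [map_add, map_add, hx, hy, map_add, map_add]
    rw [h6]
    have hz' : LinearMap.lTensor (Om ℂ A) K.dA z = prT K.M.V p x := hz
    rw [hz']
    have h7 : P.PR p (m - p) (prT K.M.V p x) = P.PR p (m - p) x := by
      change LinearMap.lTensor (Om ℂ A) (P.ρ (m - p)) (prT K.M.V p (prT K.M.V p x)) = _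
      rw [prT_same]
      rfl
    rw [h7]
    exact P.PR_of_mem hx p (m - p) (by omega)
  refine ⟨y, hy, fun q hq => ?_⟩
  change prT K.M.V q (x - K.D b y) = 0
  rw [D_apply, map_sub, map_add]
  have h8 : prT K.M.V q (dR b K.C y) = 0 := by
    rw [← hy2]
    exact prT_of_ne (by omega : p + 1 ≠ q) (dR_mem b K.C (prT_mem p y))
  rw [h8, zero_add, hy3]
  rcases Nat.lt_succ_iff_lt_or_eq.1 hq with h | rfl
  · rw [hF q h, prT_prT p q (by omega), sub_zero]
  · rw [prT_same, sub_self]

end DGM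

end

end Vale.Agent.P286.H697
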