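import Vale.Agent.P286.H697.CartF

/-!
# The de Rham complex of a cartesian complex of `D`-modules satisfies the Künneth property
-/

namespace Vale.Agent.P286.H697

open CategoryTheory Vale.Agent.P286.Gen Vale.Agent.P286.H295 Vale.Agent.P286.H710
  Vale.Agent.P286.H847 Vale.Agent.P286.H847.GD Vale.Agent.P286.H847.SGD Vale.Agent.P286.St
  Vale.Agent.P286.H44 TensorProduct

noncomputable section

variable {N : ℕ} {Γ : Gps N} [hs : Algebra.Smooth ℂ (Of Γ)]

/-- The category `BG` has no twist. -/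
theorem str_BGT (Γ : Gps N) : H389.Str (BGT Γ) where
  s0 := rfl
  dl1 _ := rfl
  fid _ := rfl
  fcomp _ _ := rfl
  cen _ _ h := h

/-- The sections over the coproduct with the point, as a complex of `D`-modules over the tensor
product. -/
def dgc (K : GTD (BGT Γ)) (X : Gen.BGObj Γ) : DGM (X.A.R ⊗[ℂ] Of Γ) := dgm K (cop X)

/-- The sections over `X`. -/
def dgx (K : GTD (BGT Γ)) (X : Gen.BGObj Γ) : DGM X.A.R := dgm K X

/-- The transition map to the coproduct. -/
def smc (K : GTD (BGT Γ)) (X : Gen.BGObj Γ) : SMor (dgx K X) (dgc K X) where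
  t := K.tr (inl X)
  smul a x := tA_smul K (inl X) a x
  hor := tA_hor (T := BGT Γ) (fun _ => rfl) K (inl X)

/-- The dual bases. -/
def bX (X : Gen.BGObj Γ) : DB ℂ X.A.R := bT (BGT Γ) X

/-- The dual bases. -/
def bY (X : Gen.BGObj Γ) : DB ℂ (X.A.R ⊗[ℂ] Of Γ) := bT (BGT Γ) (cop X)

/-- The Künneth morphism. -/
def knc (K : GTD (BGT Γ)) (X : Gen.BGObj Γ) :
    Hom (tens (OmS (Of Γ)) (DGM.DRg (bX X) (dgx K X))) (DGM.DRg (bY X) (dgc K X)) :=
  (smc K X).kn (bX X) (bY X)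

theorem knc_qis (K : GTD (BGT Γ)) (hI : ∀ X, DirectSum.IsInternal (K.F X).gr)
    (hK : Cx.Cart (GTD.toCx K)) (X : Gen.BGObj Γ) : Qis (knc K X) := by
  obtain ⟨P⟩ := DGM.Dec.of_internal (K := dgx K X) (hI X)
  obtain ⟨Q⟩ := DGM.Dec.of_internal (K := dgc K X) (hI (cop X))
  refine SMor.qis_kn (bX X) (bY X) P Q (smc K X) ?_
  let : Algebra ((BGT Γ).R X) ((BGT Γ).R (cop X)) :=
    inferInstanceAs (Algebra X.A.R (X.A.R ⊗[ℂ] Of Γ))
  have : IsScalarTower ℂ ((BGT Γ).R X) ((BGT Γ).R (cop X)) :=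
    inferInstanceAs (IsScalarTower ℂ X.A.R (X.A.R ⊗[ℂ] Of Γ))
  have : Module.Flat ((BGT Γ).R X) ((BGT Γ).R (cop X)) :=
    inferInstanceAs (Module.Flat X.A.R (X.A.R ⊗[ℂ] Of Γ))
  exact cart_qis (K := K) (X := X) (Y := cop X) hK (inl X) (fun _ => rfl) P
    ((smc K X).pu (bX X)).u (fun _ _ => rfl)

/-- **KUN** for the de Rham complex of a cartesian complex of `D`-modules. -/
theorem kun_DRF (hT : H389.Str (BGT Γ)) (K : GTD (BGT Γ))
    (hI : ∀ X, DirectSum.IsInternal (K.F X).gr) (hK : Cx.Cart (GTD.toCx K)) :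
    KUN (DRF hT K) := by
  intro X
  refine qis_congr (u := (knc K X : Hom (tens (OmS (Of Γ)) (fib (DRF hT K) X).M)
    (fib (DRF hT K) (cop X)).M)) (fun z => ?_) (knc_qis K hI hK X)
  have key : ∀ z : Om ℂ (Of Γ) ⊗[ℂ] (fib (DRF hT K) X).M.V,
      (knc K X).f z = (kun (DRF hT K) X).f z := by
    intro z
    induction z using TensorProduct.induction_on with
    | zero => exact (map_zero _).trans (map_zero _).symm
    | tmul w y => rfl
    | add x y hx hy => exact (map_add _ _ _).trans ((congrArg₂ (· + ·) hx hy).trans (map_add _ _ _).symm)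
  exact key z

end

end Vale.Agent.P286.H697
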