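import Vale.Agent.P286.H697.Pul
import Vale.Agent.P286.H697.DRF
import Vale.Agent.P286.H710.Lam

/-!
# The Künneth map for the de Rham complex of a complex of `D`-modules
-/

namespace Vale.Agent.P286.H697

open Vale.Agent.P286.H710 Vale.Agent.P286.H847 Vale.Agent.P286.H847.GD Vale.Agent.P286.H847.SGD
  Vale.Agent.P286.H44 TensorProduct

noncomputable section

section Bij

variable {M N : GD}

/-- A bijective morphism is bijective on homogeneous parts. -/
theorem surj_gr (u : Hom M N) (h : Function.Bijective u.f) (hM : ⨆ m, M.gr m = ⊤) (Q : Prj N)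
    (m : ℤ) (y : N.V) (hy : y ∈ N.gr m) : ∃ x ∈ M.gr m, u.f x = y := by
  have key : ∀ x, ∃ x' ∈ M.gr m, u.f x' = Q.P m (u.f x) := by
    intro x
    induction x using Prj.ind hM with
    | zero => exact ⟨0, zero_mem _, by simp⟩
    | hom j x hx =>
      by_cases hj : j = m
      · subst hj
        exact ⟨x, hx, (Q.eq j _ (u.deg j x hx)).symm⟩
      · exact ⟨0, zero_mem _, by rw [map_zero, Q.ne j m hj _ (u.deg j x hx)]⟩
    | add x y hx hy =>
      obtain ⟨x', hx', ex⟩ := hx
      obtain ⟨y', hy', ey⟩ := hy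
      exact ⟨x' + y', add_mem hx' hy', by rw [map_add, ex, ey, map_add, map_add]⟩
  obtain ⟨x, rfl⟩ := h.2 y
  obtain ⟨x', hx', e⟩ := key x
  exact ⟨x', hx', by rw [e, Q.eq m _ hy]⟩

/-- A bijective morphism is a quasi-isomorphism. -/
theorem qis_of_bij (u : Hom M N) (h : Function.Bijective u.f) (hM : ⨆ m, M.gr m = ⊤) (Q : Prj N) :
    Qis u := by
  intro m
  constructor
  · rintro x _ _ ⟨y, hy, e⟩
    obtain ⟨x', hx', rfl⟩ := surj_gr u h hM Q (m - 1) y hy
    exact ⟨x', hx', h.1 (by rw [u.comm, e])⟩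
  · intro y hy hd
    obtain ⟨x, hx, rfl⟩ := surj_gr u h hM Q m y hy
    refine ⟨x, hx, h.1 (by rw [u.comm, hd, map_zero]), 0, zero_mem _, ?_⟩
    rw [map_zero, sub_self]

theorem sup_tens (E : SGD) (F : GD) (hE : ⨆ m, E.gr m = ⊤) (hF : ⨆ m, F.gr m = ⊤) :
    ⨆ m, (tens E F).gr m = ⊤ := by
  rw [eq_top_iff]
  rintro z -
  change z ∈ ⨆ m, tgr E.toGD F m
  induction z using TensorProduct.induction_on with
  | zero => exact zero_mem _
  | tmul w y =>
    induction w using Prj.ind hE with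
    | zero => rw [zero_tmul]; exact zero_mem _
    | hom i w hw =>
      induction y using Prj.ind hF with
      | zero => rw [tmul_zero]; exact zero_mem _
      | hom j y hy => exact Submodule.mem_iSup_of_mem (i + j) (SGD.tmul_mem rfl hw hy)
      | add y y' hy hy' => rw [tmul_add]; exact add_mem hy hy'
    | add w w' hw hw' => rw [add_tmul]; exact add_mem hw hw'
  | add x y hx hy => exact add_mem hx hy

end Bij

namespace DGM

variable {A : Type} [CommRing A] [Algebra ℂ A] {K : DGM A}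

theorem Dec.sup (P : Dec K) : ⨆ m, K.M.gr m = ⊤ := by
  rw [eq_top_iff]
  intro x _
  obtain ⟨s, hs⟩ := P.sum x
  rw [hs]
  exact Submodule.sum_mem _ fun i _ => Submodule.mem_iSup_of_mem i (P.mem i x)

theorem DRg_sup (P : Dec K) (b : DB ℂ A) : ⨆ m, (DRg b K).gr m = ⊤ := by
  rw [eq_top_iff]
  rintro z -
  change z ∈ ⨆ m, K.gr m
  induction z using DR.induction with
  | zero => exact zero_mem _
  | tmul w y =>
    induction w using Om.induction_gr b with
    | zero => rw [zero_tmul]; exact zero_mem _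
    | h p w hw =>
      induction y using Prj.ind P.sup with
      | zero => rw [tmul_zero]; exact zero_mem _
      | hom j y hy =>
        exact Submodule.mem_iSup_of_mem ((p : ℤ) + j) (K.tmul_mem rfl hw hy)
      | add y y' hy hy' => rw [tmul_add]; exact add_mem hy hy'
    | add w w' hw hw' => rw [add_tmul]; exact add_mem hw hw'
  | add x y hx hy => exact add_mem hx hy

theorem Dec.PR_of_ne (P : Dec K) {m n : ℤ} (hmn : m ≠ n) {x : DR ℂ A K.M.V} (hx : x ∈ K.gr m)
    (p : ℕ) (i : ℤ) (h : (p : ℤ) + i = n) : P.PR p i x = 0 := by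
  induction hx using K.gr_ind with
  | zero => rw [map_zero]
  | tmul q j hqj w hw x hx =>
    change LinearMap.lTensor (Om ℂ A) (P.ρ i) (prT K.M.V p (w ⊗ₜ[A] x)) = _
    rw [prT_tmul, LinearMap.lTensor_tmul]
    by_cases hq : q = p
    · subst hq
      rw [P.ne i j x hx (by omega), tmul_zero]
    · rw [Om.pr_of_ne hq hw, zero_tmul]
  | add x y _ _ hx hy => rw [map_add, hx, hy, add_zero]

/-- The projections of the de Rham complex. -/
def DRgPrj (P : Dec K) (b : DB ℂ A) : Prj (DRg b K) where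
  P m := (∑ p ∈ Finset.range (b.n + 1), P.PR p (m - p)).restrictScalars ℂ
  mem m x := by
    change (∑ p ∈ Finset.range (b.n + 1), P.PR p (m - p)) x ∈ K.gr m
    rw [LinearMap.sum_apply]
    exact Submodule.sum_mem _ fun p _ => P.PR_mem p _ m (by omega) x
  eq m x hx := by
    change (∑ p ∈ Finset.range (b.n + 1), P.PR p (m - p)) x = x
    rw [LinearMap.sum_apply]
    conv_rhs => rw [← sum_prT b x]
    exact Finset.sum_congr rfl fun p _ => P.PR_of_mem hx p _ (by omega)
  ne m n h x hx := by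
    change (∑ p ∈ Finset.range (b.n + 1), P.PR p (n - p)) x = 0
    rw [LinearMap.sum_apply]
    exact Finset.sum_eq_zero fun p _ => P.PR_of_ne h hx p _ (by omega)
  sup := DRg_sup P b

/-- The de Rham complex is the direct sum of its homogeneous parts. -/
theorem DRg_internal (h : DirectSum.IsInternal K.M.gr) (b : DB ℂ A) :
    DirectSum.IsInternal (DRg b K).gr := by
  obtain ⟨P⟩ := Dec.of_internal h
  exact (DRgPrj P b).internal

end DGM

section Kap

variable {A B : Type} [CommRing A] [Algebra ℂ A] [CommRing B] [Algebra ℂ B]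

/-- A semilinear horizontal morphism from a complex of `D`-modules on `A` to one on `A ⊗ B`. -/
structure SMor (K : DGM A) (L : DGM (A ⊗[ℂ] B)) where
  t : GD.Hom K.M L.M
  smul : ∀ (a : A) x, t.f (a • x) = iA ℂ A B a • t.f x
  hor : Hor (iA ℂ A B) K.C L.C (t.f : K.M.V →ₗ[ℂ] L.M.V).toAddMonoidHom

variable {K : DGM A} {L : DGM (A ⊗[ℂ] B)}

/-- The underlying additive map. -/
abbrev SMor.ta (u : SMor K L) : K.M.V →+ L.M.V := (u.t.f : K.M.V →ₗ[ℂ] L.M.V).toAddMonoidHom

theorem SMor.ta_smul (u : SMor K L) (a : A) (x : K.M.V) :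
    u.ta (a • x) = iA ℂ A B a • u.ta x := u.smul a x

theorem SMor.ta_smul' (u : SMor K L) (a : A) (x : K.M.V) :
    u.ta (a • x) = algebraMap A (A ⊗[ℂ] B) a • u.ta x := u.smul a x

/-- The linear extension of a semilinear morphism to the pull-back. -/
def SMor.pu (b : DB ℂ A) (u : SMor K L) : DGM.Mor (K.pull (A ⊗[ℂ] B) b) L where
  u :=
    { f := (pullU (A := A) (T := A ⊗[ℂ] B) u.ta u.ta_smul').restrictScalars ℂ
      comm := fun x => by
        change pullU (A := A) (T := A ⊗[ℂ] B) u.ta u.ta_smul' (DGM.tT (A ⊗[ℂ] B) K.dA x) =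
          L.M.d (pullU (A := A) (T := A ⊗[ℂ] B) u.ta u.ta_smul' x)
        induction x using TensorProduct.induction_on with
        | zero => simp
        | tmul s x =>
          rw [DGM.tT_tmul, pullU_tmul, pullU_tmul, L.d_smul]
          exact congrArg _ (u.t.comm x)
        | add x y hx hy => rw [map_add, map_add, hx, hy, map_add, map_add]
      deg := fun m x hx => by
        change x ∈ DGM.grT (A := A) (A ⊗[ℂ] B) (K.M.gr m) at hx
        change pullU (A := A) (T := A ⊗[ℂ] B) u.ta u.ta_smul' x ∈ L.M.gr m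
        induction hx using DGM.grT_ind with
        | zero => rw [map_zero]; exact zero_mem _
        | tmul s x hx =>
          rw [pullU_tmul]
          exact L.gr_smul m s _ (u.t.deg m x hx)
        | add x y _ _ hx hy => rw [map_add]; exact add_mem hx hy }
  smul a x := map_smul (pullU (A := A) (T := A ⊗[ℂ] B) u.ta u.ta_smul') a x
  act v x := pullU_act u.ta u.ta_smul' b K.C L.C (by rw [sA_eq]; exact u.hor) v x

theorem SMor.pu_tmul (b : DB ℂ A) (u : SMor K L) (s : A ⊗[ℂ] B) (x : K.M.V) :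
    (u.pu b).u.f (s ⊗ₜ[A] x) = s • u.t.f x := rfl

theorem kap_csmul (u : SMor K L) (c : ℂ) (z : KV ℂ A B K.M.V) :
    KV.kap u.ta u.ta_smul (c • z) = c • KV.kap u.ta u.ta_smul z := by
  induction z using KV.ind with
  | zero => rw [smul_zero, map_zero, smul_zero]
  | el w y => rw [← KV.csmul_el, KV.kap_el, KV.kap_el, Om.pb_csmul, smul_assoc]
  | add x y hx hy => rw [smul_add, map_add, map_add, hx, hy, smul_add]

/-- The Künneth map as a linear map. -/
def knL (u : SMor K L) : Om ℂ B ⊗[ℂ] DR ℂ A K.M.V →ₗ[ℂ] DR ℂ (A ⊗[ℂ] B) L.M.V where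
  toFun := KV.kap (k := ℂ) (A := A) (B := B) u.ta u.ta_smul
  map_add' := map_add _
  map_smul' := kap_csmul u

theorem knL_tmul (u : SMor K L) (w : Om ℂ B) (y : DR ℂ A K.M.V) :
    knL u (w ⊗ₜ[ℂ] y) = Om.pb (iB ℂ A B) w • pbT (iA ℂ A B) u.ta u.ta_smul y := rfl

theorem kn_mem (u : SMor K L) {m : ℤ} {x : DR ℂ A K.M.V} (hx : x ∈ K.gr m) :
    pbT (iA ℂ A B) u.ta u.ta_smul x ∈ L.gr m := by
  induction hx using K.gr_ind with
  | zero => rw [map_zero]; exact zero_mem _
  | tmul q i h w' hw' x hx =>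
    rw [pbT_tmul]
    exact L.tmul_mem h (Om.pb_mem _ hw') (u.t.deg i x hx)
  | add x y _ _ hx hy => rw [map_add]; exact add_mem hx hy

theorem DRg_smul_omg {A : Type} [CommRing A] [Algebra ℂ A] {K : DGM A} {i j m : ℤ}
    (h : i + j = m) {w : Om ℂ A} {x : DR ℂ A K.M.V} (hw : w ∈ (OmGD A).gr i) (hx : x ∈ K.gr j) :
    w • x ∈ K.gr m := by
  rcases hw with rfl | ⟨p, rfl, hw⟩
  · rw [zero_smul]; exact zero_mem _
  · induction hx using K.gr_ind with
    | zero => rw [smul_zero]; exact zero_mem _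
    | tmul q i h w' hw' x hx =>
      rw [smul_tmul', smul_eq_mul]
      exact K.tmul_mem (p := p + q) (i := i) (by push_cast; omega) (Om.gr_mul hw hw') hx
    | add x y _ _ hx hy => rw [smul_add]; exact add_mem hx hy

theorem knL_comm (b : DB ℂ A) (b' : DB ℂ (A ⊗[ℂ] B)) (u : SMor K L)
    (z : Om ℂ B ⊗[ℂ] DR ℂ A K.M.V) :
    knL u (td (OmS B) (DGM.DRg b K) z) = L.D b' (knL u z) := by
  induction z using TensorProduct.induction_on with
  | zero => simp
  | tmul w y =>
    rw [td_tmul, map_add]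
    change Om.pb (iB ℂ A B) (Om.d w) • pbT (iA ℂ A B) u.ta u.ta_smul y +
      Om.pb (iB ℂ A B) (Om.sg w) • pbT (iA ℂ A B) u.ta u.ta_smul (K.D b y) =
      L.D b' (Om.pb (iB ℂ A B) w • pbT (iA ℂ A B) u.ta u.ta_smul y)
    rw [D_smul, Om.pb_d, Om.pb_sg, DGM.D_apply, DGM.D_apply, map_add,
      pbT_dR (iA ℂ A B) u.ta u.ta_smul b b' K.C L.C u.hor,
      pbT_sgT (iA ℂ A B) u.ta u.ta_smul u.ta u.ta_smul K.dA L.dA (fun x => u.t.comm x)]
  | add x y hx hy => rw [map_add, map_add, hx, hy, map_add, map_add]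

/-- The Künneth morphism `θ ⊗ y ↦ θ t(y)`. -/
def SMor.kn (b : DB ℂ A) (b' : DB ℂ (A ⊗[ℂ] B)) (u : SMor K L) :
    Hom (tens (OmS B) (DGM.DRg b K)) (DGM.DRg b' L) where
  f := knL u
  comm z := knL_comm b b' u z
  deg m z hz := by
    have : tgr (OmGD B) (DGM.DRg b K) m ≤ (L.gr m).comap (knL u) :=
      tgr_le fun i j x y hij hx hy => by
        rw [Submodule.mem_comap, knL_tmul]
        exact DRg_smul_omg hij ((OmGD.pb (iB ℂ A B)).deg i x hx) (kn_mem u hy)
    exact this hz

/-- The universal semilinear morphism. -/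
def SMor.un (B : Type) [CommRing B] [Algebra ℂ B] (b : DB ℂ A) (K : DGM A) :
    SMor K (K.pull (A ⊗[ℂ] B) b) where
  t :=
    { f :=
        { toFun := fun x => (1 : A ⊗[ℂ] B) ⊗ₜ[A] x
          map_add' := tmul_add _
          map_smul' := fun c x => by
            rw [RingHom.id_apply, ← algebraMap_smul A c x, tmul_smul, algebraMap_smul] }
      comm := fun x => rfl
      deg := fun m x hx => DGM.tmul_grT _ hx }
  smul a x := pullT_smul (A := A) (T := A ⊗[ℂ] B) (M := K.M.V) a x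
  hor := by
    have h := pullT_hor (k := ℂ) (A := A) (T := A ⊗[ℂ] B) b K.C
    rw [sA_eq] at h
    exact h

theorem SMor.un_bij (b : DB ℂ A) (b' : DB ℂ (A ⊗[ℂ] B)) (K : DGM A) :
    Function.Bijective ((SMor.un B b K).kn b b').f :=
  KV.kap_bijective (k := ℂ) (A := A) (B := B) (SMor.un B b K).ta (SMor.un B b K).ta_smul
    (isBC_pullT (k := ℂ) (A := A) (B := B) (M := K.M.V))

theorem SMor.un_qis (b : DB ℂ A) (b' : DB ℂ (A ⊗[ℂ] B)) (P : DGM.Dec K) :
    Qis ((SMor.un B b K).kn b b') :=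
  qis_of_bij _ (SMor.un_bij b b' K)
    (sup_tens (OmS B) (DGM.DRg b K) OmS_sup (DGM.DRg_sup P b)) (DGM.DRgPrj (P.pull b) b')

theorem SMor.kn_eq (b : DB ℂ A) (b' : DB ℂ (A ⊗[ℂ] B)) (u : SMor K L)
    (z : Om ℂ B ⊗[ℂ] DR ℂ A K.M.V) :
    (u.kn b b').f z = (DGM.DRg.map b' (u.pu b)).f (((SMor.un B b K).kn b b').f z) := by
  change knL u z = LinearMap.lTensor (Om ℂ (A ⊗[ℂ] B)) (u.pu b).lin (knL (SMor.un B b K) z)
  induction z using TensorProduct.induction_on with
  | zero => simp
  | tmul w y =>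
    rw [knL_tmul, knL_tmul, DGM.lT_smul]
    congr 1
    induction y using DR.induction with
    | zero => simp
    | tmul w y =>
      rw [pbT_tmul, pbT_tmul, LinearMap.lTensor_tmul]
      congr 1
      exact (one_smul _ _).symm
    | add x y hx hy => rw [map_add, map_add, hx, hy, map_add]
  | add x y hx hy => rw [map_add, map_add, hx, hy, map_add]

/-- **The Künneth theorem** for a horizontal morphism whose linear extension to the pull-back is a
quasi-isomorphism. -/
theorem SMor.qis_kn (b : DB ℂ A) (b' : DB ℂ (A ⊗[ℂ] B)) (P : DGM.Dec K)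
    (Q : DGM.Dec L) (u : SMor K L) (hu : Qis (u.pu b).u) : Qis (u.kn b b') := by
  have h1 : Qis ((DGM.DRg.map b' (u.pu b)).comp ((SMor.un B b K).kn b b')) :=
    Qis.comp (DGM.qis_DRg b' (P.pull b) Q (u.pu b) hu) (SMor.un_qis b b' P)
  intro m
  obtain ⟨h2, h3⟩ := h1 m
  refine ⟨fun x hx hd hy => h2 x hx hd ?_, fun y hy hd => ?_⟩
  · obtain ⟨y, hy, e⟩ := hy
    exact ⟨y, hy, by rw [e]; exact SMor.kn_eq b b' u x⟩
  · obtain ⟨x, hx, hd', y', hy', e⟩ := h3 y hy hd
    exact ⟨x, hx, hd', y', hy', by rw [e]; exact congrArg (y - ·) (SMor.kn_eq b b' u x).symm⟩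

end Kap

end

end Vale.Agent.P286.H697
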