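import Vale.Agent.P286.H697.DRq4
import Vale.Agent.P286.H710.Pull
import Vale.Agent.P286.H710.TenQ

/-!
# The pull-back of a complex of `D`-modules
-/

namespace Vale.Agent.P286.H697

open Vale.Agent.P286.H710 Vale.Agent.P286.H847 TensorProduct

noncomputable section

namespace DGM

variable {A : Type} [CommRing A] [Algebra ℂ A] (T : Type) [CommRing T] [Algebra ℂ T]
  [Algebra A T] [IsScalarTower ℂ A T]

section GradedPull

/-- The operator `1 ⊗ u`, as a `T`-linear map. -/
def tT {V W : Type} [AddCommGroup V] [Module A V] [AddCommGroup W] [Module A W] (u : V →ₗ[A] W) :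
    T ⊗[A] V →ₗ[T] T ⊗[A] W := TensorProduct.AlgebraTensorModule.map LinearMap.id u

variable {T}

@[simp] theorem tT_tmul {V W : Type} [AddCommGroup V] [Module A V] [AddCommGroup W] [Module A W]
    (u : V →ₗ[A] W) (x : T) (v : V) : tT T u (x ⊗ₜ[A] v) = x ⊗ₜ[A] u v := rfl

theorem tT_tT {V W Z : Type} [AddCommGroup V] [Module A V] [AddCommGroup W] [Module A W]
    [AddCommGroup Z] [Module A Z] (u : V →ₗ[A] W) (v : W →ₗ[A] Z) (x : T ⊗[A] V) :
    tT T v (tT T u x) = tT T (v ∘ₗ u) x := by
  induction x using TensorProduct.induction_on with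
  | zero => simp
  | tmul x y => rfl
  | add x y hx hy => rw [map_add, map_add, hx, hy, map_add]

theorem tT_eq {V W : Type} [AddCommGroup V] [Module A V] [AddCommGroup W] [Module A W]
    {u u' : V →ₗ[A] W} (h : ∀ x, u x = u' x) (x : T ⊗[A] V) : tT T u x = tT T u' x := by
  rw [LinearMap.ext h]

/-- The span of the elements `s ⊗ x`, `x` in `G`. -/
def grT (T : Type) [CommRing T] [Algebra ℂ T] [Algebra A T] [IsScalarTower ℂ A T]
    {V : Type} [AddCommGroup V] [Module ℂ V] [Module A V] [IsScalarTower ℂ A V]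
    (G : Submodule ℂ V) : Submodule ℂ (T ⊗[A] V) :=
  Submodule.span ℂ {y | ∃ (s : T), ∃ x ∈ G, s ⊗ₜ[A] x = y}

section
variable {V W : Type} [AddCommGroup V] [Module ℂ V] [Module A V] [IsScalarTower ℂ A V]
  [AddCommGroup W] [Module ℂ W] [Module A W] [IsScalarTower ℂ A W]
  {G : Submodule ℂ V} {H : Submodule ℂ W}

theorem tmul_grT (s : T) {x : V} (hx : x ∈ G) : s ⊗ₜ[A] x ∈ grT (A := A) T G :=
  Submodule.subset_span ⟨s, x, hx, rfl⟩

@[elab_as_elim]
theorem grT_ind {Q : ∀ x : T ⊗[A] V, x ∈ grT (A := A) T G → Prop}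
    (zero : Q 0 (Submodule.zero_mem _))
    (tmul : ∀ (s : T) (x : V) (hx : x ∈ G), Q (s ⊗ₜ[A] x) (tmul_grT s hx))
    (add : ∀ x y hx hy, Q x hx → Q y hy → Q (x + y) (add_mem hx hy)) {x : T ⊗[A] V}
    (hx : x ∈ grT (A := A) T G) : Q x hx := by
  have h : ∀ c : ℂ, Q (c • x) (Submodule.smul_mem _ c hx) := by
    induction hx using Submodule.span_induction with
    | mem x hx =>
      obtain ⟨s, x, hx, rfl⟩ := hx
      intro c
      exact tmul (c • s) x hx
    | zero =>
      intro c
      simpa using zero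
    | add x y _ _ hx hy =>
      intro c
      simpa using add _ _ _ _ (hx c) (hy c)
    | smul c x _ hx =>
      intro c'
      simpa [smul_smul] using hx (c' * c)
  simpa using h 1

theorem smul_grT (s : T) {x : T ⊗[A] V} (hx : x ∈ grT (A := A) T G) :
    s • x ∈ grT (A := A) T G := by
  induction hx using grT_ind with
  | zero => rw [smul_zero]; exact zero_mem _
  | tmul s' x hx => rw [smul_tmul']; exact tmul_grT _ hx
  | add x y _ _ hx hy => rw [smul_add]; exact add_mem hx hy

theorem tT_grT (u : V →ₗ[A] W) (hu : ∀ x ∈ G, u x ∈ H) {x : T ⊗[A] V}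
    (hx : x ∈ grT (A := A) T G) : tT T u x ∈ grT (A := A) T H := by
  induction hx using grT_ind with
  | zero => rw [map_zero]; exact zero_mem _
  | tmul s' x hx => exact tmul_grT _ (hu x hx)
  | add x y _ _ hx hy => rw [map_add]; exact add_mem hx hy

end

end GradedPull

/-- The underlying graded differential space of the pull-back. -/
abbrev pullM (K : DGM A) : GD where
  V := T ⊗[A] K.M.V
  d := (tT T K.dA).restrictScalars ℂ
  dd := fun x => by
    change tT T K.dA (tT T K.dA x) = 0
    rw [tT_tT, tT_eq (u' := 0) (fun x => K.M.dd x)]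
    induction x using TensorProduct.induction_on with
    | zero => simp
    | tmul x y => rw [tT_tmul, LinearMap.zero_apply, tmul_zero]
    | add x y hx hy => rw [map_add, hx, hy, add_zero]
  gr := fun m => grT (A := A) T (K.M.gr m)
  dgr := fun m x hx => tT_grT K.dA (fun x hx => K.M.dgr m x hx) hx

/-- The pull-back of a complex of `D`-modules. -/
abbrev pull (b : DB ℂ A) (K : DGM A) : DGM T where
  M := pullM T K
  C := FC.pull T b K.C
  d_smul a x := map_smul (tT T K.dA) a x
  d_act v x := by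
    change tT T K.dA ((FC.pull T b K.C).act v x) = (FC.pull T b K.C).act v (tT T K.dA x)
    induction x using TensorProduct.induction_on with
    | zero => rw [FC.act_zero, map_zero, FC.act_zero]
    | tmul x y =>
      rw [tT_tmul, FC.pull_tmul, FC.pull_tmul, map_add, map_smul, tT_tmul, gam_apply, gam_apply,
        map_sum]
      congr 2
      exact Finset.sum_congr rfl fun i _ => by
        rw [tT_tmul]
        exact congrArg _ (K.d_act _ _)
    | add x y hx hy => rw [FC.act_add, map_add, hx, hy, map_add, FC.act_add]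
  gr_smul m a x hx := smul_grT a hx
  gr_act m v x hx := by
    change (FC.pull T b K.C).act v x ∈ grT (A := A) T (K.M.gr m)
    induction hx using grT_ind with
    | zero => rw [FC.act_zero]; exact zero_mem _
    | tmul s x hx =>
      rw [FC.pull_tmul]
      refine add_mem (tmul_grT _ hx) (smul_grT s ?_)
      rw [gam_apply]
      exact Submodule.sum_mem _ fun i _ => tmul_grT _ (K.gr_act m _ x hx)
    | add x y _ _ hx hy => rw [FC.act_add]; exact add_mem hx hy

theorem Dec.sum' {K : DGM A} (P : Dec K) (x : K.M.V) :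
    ∃ s : Finset ℤ, ∀ s' : Finset ℤ, s ⊆ s' → x = ∑ i ∈ s', P.ρ i x := by
  obtain ⟨s, hs⟩ := P.sum x
  refine ⟨s, fun s' h => ?_⟩
  conv_lhs => rw [hs]
  refine Finset.sum_subset h fun i _ hi => ?_
  rw [hs, map_sum]
  refine Finset.sum_eq_zero fun j hj => P.ne i j _ (P.mem j _) ?_
  rintro rfl
  exact hi hj

variable {T}

theorem pull_sum {K : DGM A} (P : Dec K) (x : T ⊗[A] K.M.V) :
    ∃ s : Finset ℤ, ∀ s' : Finset ℤ, s ⊆ s' → x = ∑ i ∈ s', tT T (P.ρ i) x := by
  classical
  induction x using TensorProduct.induction_on with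
  | zero => exact ⟨∅, fun s' _ => by simp⟩
  | tmul x y =>
    obtain ⟨s, hs⟩ := P.sum' y
    refine ⟨s, fun s' h => ?_⟩
    simp only [tT_tmul]
    rw [← tmul_sum, ← hs s' h]
  | add x y hx hy =>
    obtain ⟨s, hs⟩ := hx
    obtain ⟨t, ht⟩ := hy
    refine ⟨s ∪ t, fun s' h => ?_⟩
    simp only [map_add]
    rw [Finset.sum_add_distrib, ← hs s' (Finset.union_subset_left h),
      ← ht s' (Finset.union_subset_right h)]

theorem tT_mem {K : DGM A} (P : Dec K) (i : ℤ) (x : T ⊗[A] K.M.V) :
    tT T (P.ρ i) x ∈ grT (A := A) T (K.M.gr i) := by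
  induction x using TensorProduct.induction_on with
  | zero => rw [map_zero]; exact zero_mem _
  | tmul x y => exact tmul_grT _ (P.mem i y)
  | add x y hx hy => rw [map_add]; exact add_mem hx hy

theorem tT_same {K : DGM A} (P : Dec K) (i : ℤ) (x : T ⊗[A] K.M.V)
    (hx : x ∈ grT (A := A) T (K.M.gr i)) : tT T (P.ρ i) x = x := by
  induction hx using grT_ind with
  | zero => rw [map_zero]
  | tmul s x hx => rw [tT_tmul, P.same i x hx]
  | add x y _ _ hx hy => rw [map_add, hx, hy]

theorem tT_ne {K : DGM A} (P : Dec K) (i j : ℤ) (x : T ⊗[A] K.M.V)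
    (hx : x ∈ grT (A := A) T (K.M.gr j)) (h : j ≠ i) : tT T (P.ρ i) x = 0 := by
  induction hx using grT_ind with
  | zero => rw [map_zero]
  | tmul s x hx => rw [tT_tmul, P.ne i j x hx h, tmul_zero]
  | add x y _ _ hx hy => rw [map_add, hx, hy, add_zero]

/-- Homogeneous projections on the pull-back. -/
def Dec.pull {K : DGM A} (P : Dec K) (b : DB ℂ A) : Dec (K.pull T b) where
  ρ i := tT T (P.ρ i)
  mem i x := tT_mem P i x
  same i x hx := tT_same P i x hx
  ne i j x hx h := tT_ne P i j x hx h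
  sum x := by
    obtain ⟨s, hs⟩ := pull_sum P x
    exact ⟨s, hs s (Finset.Subset.refl s)⟩

/-- The homogeneous projections given by a decomposition. -/
theorem Dec.of_internal {K : DGM A} (h : DirectSum.IsInternal K.M.gr) : Nonempty (Dec K) := by
  obtain ⟨Q⟩ := Prj.nonempty h
  have key : ∀ (m : ℤ) (a : A) (x : K.M.V), Q.P m (a • x) = a • Q.P m x := by
    intro m a x
    have hx : x ∈ ⨆ m, K.M.gr m := by rw [Q.sup]; trivial
    refine Submodule.iSup_induction K.M.gr (motive := fun x => Q.P m (a • x) = a • Q.P m x) hx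
      (fun j x hx => ?_) (by simp) (fun x y hx hy => by rw [smul_add, map_add, hx, hy, map_add,
        smul_add])
    by_cases hj : j = m
    · subst hj
      rw [Q.eq j x hx, Q.eq j _ (K.gr_smul j a x hx)]
    · rw [Q.ne j m hj x hx, Q.ne j m hj _ (K.gr_smul j a x hx), smul_zero]
  have hsum : ∀ x : K.M.V, ∃ s : Finset ℤ, ∀ s' : Finset ℤ, s ⊆ s' → x = ∑ i ∈ s', Q.P i x := by
    classical
    intro x
    have hx : x ∈ ⨆ m, K.M.gr m := by rw [Q.sup]; trivial
    refine Submodule.iSup_induction K.M.gr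
      (motive := fun x => ∃ s : Finset ℤ, ∀ s' : Finset ℤ, s ⊆ s' → x = ∑ i ∈ s', Q.P i x) hx
      (fun j x hx => ⟨{j}, fun s' hs => ?_⟩) ⟨∅, fun s' _ => by simp⟩ (fun x y hx hy => ?_)
    · rw [Finset.sum_eq_single_of_mem j (hs (Finset.mem_singleton_self j))
        (fun i _ hi => Q.ne j i (Ne.symm hi) x hx), Q.eq j x hx]
    · obtain ⟨s, hs⟩ := hx
      obtain ⟨t, ht⟩ := hy
      refine ⟨s ∪ t, fun s' h => ?_⟩
      simp only [map_add]
      rw [Finset.sum_add_distrib, ← hs s' (Finset.union_subset_left h),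
        ← ht s' (Finset.union_subset_right h)]
  refine ⟨⟨fun m => { toFun := Q.P m, map_add' := map_add _, map_smul' := key m }, Q.mem, Q.eq,
    fun i j x hx h => Q.ne j i h x hx, fun x => ?_⟩⟩
  obtain ⟨s, hs⟩ := hsum x
  exact ⟨s, hs s (Finset.Subset.refl s)⟩

end DGM

end

end Vale.Agent.P286.H697
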